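import Vale.Agent.P274.Full.Cayley.Basic
import Mathlib.Analysis.SpecialFunctions.ExpDeriv
import Mathlib.Analysis.Calculus.Deriv.Prod
import Mathlib.Analysis.Calculus.Deriv.Pow
import Mathlib.Analysis.Calculus.Deriv.Add
import Mathlib.Analysis.Calculus.Deriv.Mul

/-!
Affine automorphisms of a Siegel domain.
-/

open Filter Metric Set Function Topology Complex

namespace Vale.Agent.P274.Full.Sym

noncomputable section

variable {m k : ℕ}

/-- A real vector as a complex vector. -/
def rC : Rn k →L[ℝ] Cn k :=
  ({ toFun := fun u => mkC u 0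
     map_add' := fun a b => by ext i; apply Complex.ext <;> simp
     map_smul' := fun t a => by ext i; apply Complex.ext <;> simp } :
    Rn k →ₗ[ℝ] Cn k).toContinuousLinearMap

@[simp] theorem rC_apply (u : Rn k) (i : Fin k) : rC u i = (u i : ℂ) := rfl

@[simp] theorem iv_add (a b : Cn k) : iv (a + b) = iv a + iv b := by ext i; simp

@[simp] theorem iv_sub (a b : Cn k) : iv (a - b) = iv a - iv b := by ext i; simp

@[simp] theorem iv_zero : iv (0 : Cn k) = 0 := by ext i; simp

@[simp] theorem rv_zero : rv (0 : Cn k) = 0 := by ext i; simp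

@[simp] theorem rv_add (a b : Cn k) : rv (a + b) = rv a + rv b := by ext i; simp

@[simp] theorem iv_smulR (t : ℝ) (a : Cn k) : iv (t • a) = t • iv a := by ext i; simp

theorem iv_smul (c : ℂ) (a : Cn k) : iv (c • a) = c.re • iv a + c.im • rv a := by ext i; simp

theorem rv_smul (c : ℂ) (a : Cn k) : rv (c • a) = c.re • rv a - c.im • iv a := by ext i; simp

@[simp] theorem iv_rC (u : Rn k) : iv (rC u) = 0 := by ext i; simp

@[simp] theorem rv_rC (u : Rn k) : rv (rC u) = u := by ext i; simp

theorem re_add_im (w : Cn k) : rC (rv w) + I • rC (iv w) = w := by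
  ext i; apply Complex.ext <;> simp

theorem rC_injective : Injective (rC (k := k)) := fun a b h => by
  simpa using congrArg rv h

/-- The complexification of a real functional. -/
def fl (l : Rn k →L[ℝ] ℝ) : Cn k →L[ℂ] ℂ :=
  ({ toFun := fun w => (l (rv w) : ℂ) + I * (l (iv w) : ℂ)
     map_add' := fun a b => by simp; ring
     map_smul' := fun c a => by
       rw [rv_smul, Sym.iv_smul, map_sub, map_add, map_smul, map_smul, map_smul, map_smul]
       apply Complex.ext <;> simp } : Cn k →ₗ[ℂ] ℂ).toContinuousLinearMap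

theorem fl_apply (l : Rn k →L[ℝ] ℝ) (w : Cn k) :
    fl l w = (l (rv w) : ℂ) + I * (l (iv w) : ℂ) := rfl

@[simp] theorem fl_im (l : Rn k →L[ℝ] ℝ) (w : Cn k) : (fl l w).im = l (iv w) := by
  simp [fl_apply]

@[simp] theorem fl_re (l : Rn k →L[ℝ] ℝ) (w : Cn k) : (fl l w).re = l (rv w) := by
  simp [fl_apply]

@[simp] theorem fl_rC (l : Rn k →L[ℝ] ℝ) (u : Rn k) : fl l (rC u) = (l u : ℂ) := by
  simp [fl_apply]

/-- The diagonal linear map with two weights. -/
def sc (a b : ℂ) : Mod m k →L[ℂ] Mod m k :=
  (a • ContinuousLinearMap.fst ℂ (Cn m) (Cn k)).prod (b • ContinuousLinearMap.snd ℂ (Cn m) (Cn k))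

@[simp] theorem sc_apply (a b : ℂ) (p : Mod m k) : sc a b p = (a • p.1, b • p.2) := rfl

/-- The weighted dilation. -/
abbrev dil (t : ℂ) : Mod m k →L[ℂ] Mod m k := sc t (t ^ 2)

/-- A point of the axis over `e`. -/
def axis (e : Rn k) (τ : ℂ) : Mod m k := (0, τ • rC e)

/-- The base point over `e`. -/
abbrev base (e : Rn k) : Mod m k := axis e I

theorem iv_axis (e : Rn k) (τ : ℂ) : iv (τ • rC e) = τ.im • e := by
  simp [Sym.iv_smul]

variable (S : Siegel m k)

theorem axis_mem {e : Rn k} (he : e ∈ S.C) {τ : ℂ} (hτ : 0 < τ.im) : (axis e τ : Mod m k) ∈ S.dom := by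
  show iv (τ • rC e) - S.H 0 0 ∈ S.C
  simpa [iv_axis] using S.cone e he _ hτ

theorem base_mem {e : Rn k} (he : e ∈ S.C) : (base e : Mod m k) ∈ S.dom :=
  axis_mem S he (by simp)

theorem H_I_left (a b : Cn m) : S.H (I • a) b = -S.H a (I • b) := by
  have hb : b = -(I • I • b) := by rw [smul_smul, I_mul_I]; simp
  conv_lhs => rw [hb]
  rw [map_neg, S.inv_I]

theorem H_self_I (a : Cn m) : S.H a (I • a) = 0 := by
  have h1 := (S.symm a (I • a)).trans (H_I_left S a a)
  ext i
  have h2 := congrArg (fun v : Rn k => v i) h1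
  simp only [PiLp.neg_apply] at h2
  simp
  linarith

theorem H_smul_left (c : ℂ) (a b : Cn m) :
    S.H (c • a) b = c.re • S.H a b - c.im • S.H a (I • b) := by
  have hc : c • a = c.re • a + c.im • (I • a) := by
    conv_lhs => rw [← Complex.re_add_im c]
    rw [add_smul, mul_smul]
    rfl
  rw [hc, map_add, map_smul, map_smul]
  simp [H_I_left, sub_eq_add_neg]

theorem H_smul_smul (c : ℂ) (a : Cn m) : S.H (c • a) (c • a) = normSq c • S.H a a := by
  rw [H_smul_left, S.symm a (c • a), S.symm a (I • c • a), smul_smul, H_smul_left, H_smul_left]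
  simp only [H_self_I, smul_zero, sub_zero, mul_re, I_re, I_im, zero_mul, zero_sub, neg_smul,
    smul_neg, sub_neg_eq_add, smul_smul, ← add_smul, normSq_apply, one_mul]

/-- The Hermitian form, linear in the first argument. -/
def herm (b : Cn m) : Cn m →L[ℂ] Cn k :=
  ({ toFun := fun a => mkC (S.H a b) (S.H a (I • b))
     map_add' := fun a a' => by ext i; apply Complex.ext <;> simp
     map_smul' := fun c a => by
       rw [H_smul_left, H_smul_left]
       have : S.H a (I • I • b) = -S.H a b := by rw [smul_smul, I_mul_I]; simp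
       rw [this]
       ext i; apply Complex.ext <;> simp [sub_eq_add_neg] } : Cn m →ₗ[ℂ] Cn k).toContinuousLinearMap

theorem herm_apply (a b : Cn m) : herm S b a = mkC (S.H a b) (S.H a (I • b)) := rfl

@[simp] theorem rv_herm (a b : Cn m) : rv (herm S b a) = S.H a b := by
  ext i; simp [herm_apply]

@[simp] theorem iv_herm (a b : Cn m) : iv (herm S b a) = S.H a (I • b) := by
  ext i; simp [herm_apply]

theorem herm_self (a : Cn m) : herm S a a = rC (S.H a a) := by
  ext i; apply Complex.ext <;> simp [herm_apply, H_self_I]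

theorem herm_smulR (t : ℝ) (a b : Cn m) : herm S (t • b) a = t • herm S b a := by
  ext i; apply Complex.ext <;> simp [herm_apply, smul_comm I t b]

/-- A real translation. -/
def tr (u : Rn k) (p : Mod m k) : Mod m k := (p.1, p.2 + rC u)

/-- A Heisenberg translation. -/
def heis (b : Cn m) (p : Mod m k) : Mod m k :=
  (p.1 + b, p.2 + (2 * I) • herm S b p.1 + I • rC (S.H b b))

theorem iv_heis (b : Cn m) (p : Mod m k) :
    iv (heis S b p).2 - S.H (heis S b p).1 (heis S b p).1 = iv p.2 - S.H p.1 p.1 := by
  simp only [heis, iv_add, Sym.iv_smul, rv_herm, iv_herm, rv_rC, iv_rC, map_add,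
    add_apply, mul_re, mul_im, I_re, I_im, S.symm b p.1]
  norm_num
  module

@[simp] theorem herm_zero (a : Cn m) : herm S 0 a = 0 := by
  simpa using herm_smulR S 0 a 0

theorem herm_add_self (t : ℝ) (a b : Cn m) :
    herm S b (a + t • b) = herm S b a + t • rC (S.H b b) := by
  rw [map_add, (herm S b).map_smul_of_tower, herm_self]

theorem heis_smul (t : ℝ) (b : Cn m) (p : Mod m k) : heis S (t • b) p =
    (p.1 + t • b, p.2 + t • ((2 * I) • herm S b p.1) + t ^ 2 • (I • rC (S.H b b))) := by
  refine Prod.ext rfl ?_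
  simp only [heis, herm_smulR, map_smul, smul_apply, smul_smul,
    smul_comm (2 * I) t, ← sq]
  rw [smul_comm I (t ^ 2)]

theorem heis_add (s t : ℝ) (b : Cn m) (p : Mod m k) :
    heis S ((s + t) • b) p = heis S (s • b) (heis S (t • b) p) := by
  rw [heis_smul, heis_smul, heis_smul]
  refine Prod.ext ?_ ?_
  · simp only [add_smul]
    abel
  · dsimp only
    simp only [herm_add_self]
    simp only [← Complex.coe_smul]
    push_cast
    module

theorem isAut_of {a b : Mod m k → Mod m k} (ha : Differentiable ℂ a) (hb : Differentiable ℂ b)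
    (ha' : MapsTo a S.dom S.dom) (hb' : MapsTo b S.dom S.dom) (h1 : ∀ z, b (a z) = z)
    (h2 : ∀ z, a (b z) = z) : IsAut S.dom a b :=
  ⟨ha.differentiableOn, hb.differentiableOn, ha', hb', fun z _ => h1 z, fun z _ => h2 z⟩

theorem tr_mem (u : Rn k) : MapsTo (tr (m := m) u) S.dom S.dom := fun p hp => by
  show iv (p.2 + rC u) - S.H p.1 p.1 ∈ S.C
  rw [iv_add, iv_rC, add_zero]
  exact hp

theorem differentiable_tr (u : Rn k) : Differentiable ℂ (tr (m := m) u) :=
  differentiable_fst.prodMk (differentiable_snd.add_const _)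

theorem isAut_tr (u : Rn k) : IsAut S.dom (tr u) (tr (-u)) :=
  isAut_of S (differentiable_tr u) (differentiable_tr _) (tr_mem S u) (tr_mem S _)
    (fun z => by simp [tr]) fun z => by simp [tr]

theorem heis_mem (b : Cn m) : MapsTo (heis S b) S.dom S.dom := fun p hp => by
  show iv (heis S b p).2 - _ ∈ S.C
  rw [iv_heis]
  exact hp

@[fun_prop]
theorem differentiable_heis (b : Cn m) : Differentiable ℂ (heis S b) := by
  unfold heis
  fun_prop

theorem heis_zero (p : Mod m k) : heis S 0 p = p := by
  simp [heis]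

theorem isAut_heis (b : Cn m) : IsAut S.dom (heis S b) (heis S (-b)) :=
  isAut_of S (differentiable_heis S b) (differentiable_heis S _) (heis_mem S b) (heis_mem S _)
    (fun z => by simpa [heis_zero] using (heis_add S (-1) 1 b z).symm)
    fun z => by simpa [heis_zero] using (heis_add S 1 (-1) b z).symm

theorem dil_mem {t : ℝ} (ht : t ≠ 0) : MapsTo (dil (m := m) (k := k) (t : ℂ)) S.dom S.dom := by
  intro p hp
  show iv ((t : ℂ) ^ 2 • p.2) - S.H ((t : ℂ) • p.1) ((t : ℂ) • p.1) ∈ S.C
  rw [H_smul_smul, Sym.iv_smul]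
  have := S.cone _ hp (t ^ 2) (by positivity)
  simpa [normSq_ofReal, smul_sub, ← sq, ← Complex.ofReal_pow] using this

theorem dil_dil (a b : ℂ) (p : Mod m k) : dil a (dil b p) = dil (a * b) p := by
  simp [smul_smul, mul_pow]

theorem dil_one (p : Mod m k) : dil 1 p = p := by simp

theorem isAut_dil {t : ℝ} (ht : t ≠ 0) : IsAut S.dom (dil (t : ℂ)) (dil ((t⁻¹ : ℝ) : ℂ)) :=
  isAut_of S (dil _).differentiable (dil _).differentiable (dil_mem S ht)
    (dil_mem S (inv_ne_zero ht))
    (fun z => by rw [dil_dil, ← Complex.ofReal_mul, inv_mul_cancel₀ ht, ofReal_one, dil_one])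
    fun z => by rw [dil_dil, ← Complex.ofReal_mul, mul_inv_cancel₀ ht, ofReal_one, dil_one]

theorem rot_mem {c : ℂ} (hc : normSq c = 1) : MapsTo (sc c 1) S.dom S.dom := fun p hp => by
  show iv ((1 : ℂ) • p.2) - S.H (c • p.1) (c • p.1) ∈ S.C
  rw [H_smul_smul, hc, one_smul, one_smul]
  exact hp

theorem complete_tr (u : Rn k) : IsComplete S.dom fun _ : Mod m k => ((0 : Cn m), rC u) := by
  refine ⟨differentiableOn_const _, fun t => tr (t • u), fun t => (differentiable_tr _).differentiableOn,
    fun t => tr_mem S _, fun z _ => by simp [tr], fun s t z _ => ?_, fun t z _ => ?_⟩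
  · simp only [tr, add_smul, map_add]
    rw [add_assoc, add_comm (rC (t • u))]
  · have h : HasDerivAt (fun s : ℝ => z.2 + s • rC u) (rC u) t := by
      simpa using ((hasDerivAt_id t).smul_const (rC u)).const_add z.2
    simpa [tr] using (hasDerivAt_const t z.1).prodMk h

theorem complete_heis (b : Cn m) :
    IsComplete S.dom fun p : Mod m k => (b, (2 * I) • herm S b p.1) := by
  refine ⟨Differentiable.differentiableOn (by fun_prop), fun t => heis S (t • b),
    fun t => (differentiable_heis S _).differentiableOn, fun t => heis_mem S _,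
    fun z _ => by simp [heis_zero], fun s t z _ => heis_add S s t b z, fun t z _ => ?_⟩
  have h1 : HasDerivAt (fun s : ℝ => z.1 + s • b) b t := by
    simpa using ((hasDerivAt_id t).smul_const b).const_add z.1
  have h2 : HasDerivAt (fun s : ℝ => z.2 + s • ((2 * I) • herm S b z.1) + (s ^ 2) • (I • rC (S.H b b)))
      ((2 * I) • herm S b z.1 + (2 * t) • (I • rC (S.H b b))) t := by
    simpa using (((hasDerivAt_id t).smul_const ((2 * I) • herm S b z.1)).const_add z.2).fun_add
      ((hasDerivAt_pow 2 t).smul_const (I • rC (S.H b b)))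
  simp only [heis_smul]
  refine (h1.prodMk h2).congr_deriv (Prod.ext rfl ?_)
  dsimp only
  simp only [herm_add_self]
  simp only [← Complex.coe_smul]
  push_cast
  module

theorem complete_euler :
    IsComplete S.dom fun p : Mod m k => (p.1, (2 : ℝ) • p.2) := by
  refine ⟨Differentiable.differentiableOn (by fun_prop), fun t => dil (Real.exp t : ℂ),
    fun t => (dil _).differentiable.differentiableOn, fun t => dil_mem S (Real.exp_pos t).ne',
    fun z _ => by simp, fun s t z _ => by simp only [dil_dil, Real.exp_add, ofReal_mul],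
    fun t z _ => ?_⟩
  have h1 := (Real.hasDerivAt_exp t).smul_const z.1
  have h2 := ((Real.hasDerivAt_exp t).pow 2).smul_const z.2
  simp only [sc_apply, ← Complex.ofReal_pow, Complex.coe_smul]
  refine (h1.prodMk h2).congr_deriv (Prod.ext rfl ?_)
  simp only [smul_smul]
  congr 1
  ring

/-- Every point moves to a base point. -/
theorem exists_move {p : Mod m k} (hp : p ∈ S.dom) :
    ∃ e ∈ S.C, ∃ a b : Mod m k → Mod m k, IsAut S.dom a b ∧ a p = base e := by
  set q := heis S (-p.1) p with hq
  refine ⟨iv p.2 - S.H p.1 p.1, hp, tr (-rv q.2) ∘ heis S (-p.1), heis S (-(-p.1)) ∘ tr (-(-rv q.2)),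
    ?_, ?_⟩
  · exact isAut_of S ((differentiable_tr _).comp (differentiable_heis S _))
      ((differentiable_heis S _).comp (differentiable_tr _)) ((tr_mem S _).comp (heis_mem S _))
      ((heis_mem S _).comp (tr_mem S _))
      (fun z => by
        simp only [Function.comp, tr, map_neg, neg_neg, neg_add_cancel_right]
        simpa [heis_zero] using (heis_add S (-1) 1 (-p.1) z).symm)
      fun z => by
        have := (heis_add S 1 (-1) (-p.1) (tr (-(-rv q.2)) z)).symm
        simp only [add_neg_cancel, zero_smul, heis_zero, one_smul, neg_smul] at this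
        simp only [Function.comp, this]
        simp [tr]
  · have h := iv_heis S (-p.1) p
    have h1 : q.1 = 0 := by simp [hq, heis]
    rw [← hq, h1, map_zero, sub_zero] at h
    refine Prod.ext (by simp [Function.comp, tr, ← hq, h1, axis]) ?_
    simp only [Function.comp, tr, ← hq, axis, ← h]
    conv_lhs => rw [← re_add_im q.2]
    simp [rv_smul]

theorem convex_slice (z : Cn m) : Convex ℝ {w : Cn k | (z, w) ∈ S.dom} := by
  intro w hw w' hw' a b ha hb hab
  show iv (a • w + b • w') - S.H z z ∈ S.C
  have := S.convex_C hw hw' ha hb hab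
  convert this using 1
  simp only [iv_add, iv_smulR]
  rw [smul_sub, smul_sub, sub_add_sub_comm, ← add_smul, hab, one_smul]

end

end Vale.Agent.P274.Full.Sym
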