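import Vale.Agent.P274.Full.Sym.Flow
import Mathlib.LinearAlgebra.Basis.VectorSpace
import Mathlib.Analysis.Calculus.FDeriv.Analytic

/-!
Complete fields of a Siegel domain extend to entire fields.
-/

open Filter Metric Set Function Topology Complex

namespace Vale.Agent.P274.Full.Sym

noncomputable section

variable {m k : ℕ}

theorem comb_add {V : Set (Mod m k)} (P : LieData V) (c c' : Fin P.d → ℝ) (z : Mod m k) :
    comb P.B (c + c') z = comb P.B c z + comb P.B c' z := by
  simp [comb, add_smul, Finset.sum_add_distrib]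

theorem comb_smul {V : Set (Mod m k)} (P : LieData V) (t : ℝ) (c : Fin P.d → ℝ) (z : Mod m k) :
    comb P.B (t • c) z = t • comb P.B c z := by
  simp [comb, Finset.smul_sum, smul_smul]

theorem complete_congr {V : Set (Mod m k)} {X Y : Mod m k → Mod m k} (hX : IsComplete V X)
    (h : EqOn Y X V) : IsComplete V Y := by
  obtain ⟨hd, φ, h1, h2, h3, h4, h5⟩ := hX
  exact ⟨hd.congr h, φ, h1, h2, h3, h4, fun t z hz => by rw [h (h2 t hz)]; exact h5 t z hz⟩

theorem complete_push {V : Set (Mod m k)} (P : LieData V) {a b : Mod m k → Mod m k}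
    (hab : IsAut V a b) {X : Mod m k → Mod m k} (hX : IsComplete V X) :
    IsComplete V (push a b X) := by
  obtain ⟨c, hc⟩ := P.span X hX
  obtain ⟨L, hL, -⟩ := P.det a b hab
  refine complete_congr (P.complete (L c)) fun z hz => ?_
  rw [← hL c hz]
  simp only [push]
  rw [hc (hab.2.2.2.1 hz)]

theorem hasDerivAt_expv {F : Type*} [NormedAddCommGroup F] [NormedSpace ℂ F] [CompleteSpace F]
    (A : F →L[ℂ] F) (c : F) (τ : ℂ) :
    HasDerivAt (fun τ : ℂ => NormedSpace.exp ((1 - τ) • A) c)
      (-A (NormedSpace.exp ((1 - τ) • A) c)) τ := by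
  have h := (hasDerivAt_exp_smul_const' A (1 - τ)).scomp τ ((hasDerivAt_id τ).const_sub 1)
  simpa [Function.comp_def] using h.clm_apply (hasDerivAt_const τ c)

theorem fderiv_tr (u : Rn k) (z : Mod m k) :
    fderiv ℂ (tr (m := m) u) z = ContinuousLinearMap.id ℂ (Mod m k) := by
  refine HasFDerivAt.fderiv ?_
  have h := (hasFDerivAt_id (𝕜 := ℂ) z).add_const ((0 : Cn m), rC u)
  exact h.congr_of_eventuallyEq (Eventually.of_forall fun w => by simp [tr, Prod.ext_iff])

variable {S : Siegel m k} (P : LieData S.dom)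

/-- The real coefficients as complex ones. -/
def emb (c : Fin P.d → ℝ) : Fin P.d → ℂ := fun i => (c i : ℂ)

/-- A complex combination of fields. -/
def combC (v : Fin P.d → ℂ) (z : Mod m k) : Mod m k := ∑ i, v i • P.B i z

theorem combC_emb (c : Fin P.d → ℝ) (z : Mod m k) : combC P (emb P c) z = comb P.B c z := by
  simp [combC, comb, emb, Complex.coe_smul]

theorem diff_B (i : Fin P.d) : DifferentiableOn ℂ (P.B i) S.dom := by
  refine (P.complete (Pi.single i 1)).1.congr fun z _ => ?_
  simp [comb, Pi.single_apply, ite_smul]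

/-- Coefficients depending on a parameter are differentiable. -/
theorem exists_coef {F : ℝ → Mod m k → Mod m k} {G : Mod m k → Mod m k} {t₀ : ℝ}
    (hF : ∀ t, IsComplete S.dom (F t))
    (hG : ∀ p ∈ S.dom, HasDerivAt (fun t => F t p) (G p) t₀) :
    ∃ (cf : ℝ → Fin P.d → ℝ) (c' : Fin P.d → ℝ), (∀ t, EqOn (F t) (comb P.B (cf t)) S.dom) ∧
      HasDerivAt cf c' t₀ := by
  classical
  let K : Finset S.dom → Submodule ℝ (Fin P.d → ℝ) := fun s =>
    { carrier := {c | ∀ p ∈ s, comb P.B c p = 0}
      zero_mem' := fun p _ => by simp [comb]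
      add_mem' := fun {a b} ha hb p hp => by rw [comb_add, ha p hp, hb p hp, add_zero]
      smul_mem' := fun t a ha p hp => by rw [comb_smul, ha p hp, smul_zero] }
  have hex : ∃ n, ∃ s, Module.finrank ℝ (K s) = n := ⟨_, ∅, rfl⟩
  obtain ⟨s, hs⟩ := Nat.find_spec hex
  have hKs : K s = ⊥ := by
    rw [Submodule.eq_bot_iff]
    intro c hc
    by_contra hne
    obtain ⟨p, hp, hp'⟩ : ∃ p ∈ S.dom, comb P.B c p ≠ 0 := by
      by_contra h
      push Not at h
      exact hne (P.indep c h)
    have hlt : K (insert ⟨p, hp⟩ s) < K s := by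
      refine lt_of_le_of_ne (fun a ha q hq => ha q (Finset.mem_insert_of_mem hq)) fun he => hp' ?_
      have : c ∈ K (insert ⟨p, hp⟩ s) := he ▸ hc
      exact this ⟨p, hp⟩ (Finset.mem_insert_self _ _)
    have := Submodule.finrank_lt_finrank_of_lt hlt
    exact Nat.find_min hex (hs ▸ this) ⟨_, rfl⟩
  let ev : (Fin P.d → ℝ) →ₗ[ℝ] (s → Mod m k) :=
    { toFun := fun c p => comb P.B c p.1
      map_add' := fun a b => funext fun p => comb_add P a b p.1
      map_smul' := fun t a => funext fun p => comb_smul P t a p.1 }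
  have hker : LinearMap.ker ev = ⊥ := by
    rw [Submodule.eq_bot_iff]
    intro c hc
    have : c ∈ K s := fun p hp => congrFun hc ⟨p, hp⟩
    rwa [hKs, Submodule.mem_bot] at this
  obtain ⟨Λ, hΛ⟩ := LinearMap.exists_leftInverse_of_injective ev hker
  let Λc : (s → Mod m k) →L[ℝ] (Fin P.d → ℝ) := LinearMap.toContinuousLinearMap Λ
  refine ⟨fun t => Λc fun p => F t p.1, Λc fun p => G p.1, fun t => ?_, ?_⟩
  · obtain ⟨c, hc⟩ := P.span _ (hF t)
    have h2 : (fun p : s => F t p.1) = ev c := funext fun p => hc p.1.2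
    have h3 : Λ (ev c) = c := LinearMap.congr_fun hΛ c
    simp only [h2]
    show EqOn (F t) (comb P.B (Λ (ev c))) S.dom
    rwa [h3]
  · exact Λc.hasFDerivAt.comp_hasDerivAt t₀ (hasDerivAt_pi.2 fun p => hG p.1.1 p.1.2)

/-- The derivative along a parameter is again a combination. -/
theorem exists_deriv {F : ℝ → Mod m k → Mod m k} {G : Mod m k → Mod m k} {t₀ : ℝ}
    (hF : ∀ t, IsComplete S.dom (F t))
    (hG : ∀ p ∈ S.dom, HasDerivAt (fun t => F t p) (G p) t₀) :
    ∃ c, EqOn G (comb P.B c) S.dom := by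
  obtain ⟨cf, c', h1, h2⟩ := exists_coef P hF hG
  refine ⟨c', fun p hp => (hG p hp).unique ?_⟩
  simp only [h1 _ hp]
  exact HasDerivAt.fun_sum fun i _ => ((hasDerivAt_pi.1 h2) i).smul_const (P.B i p)

/-- The `j`th real direction. -/
def dir (j : Fin k) : Mod m k := (0, rC (EuclideanSpace.single j (1 : ℝ)))

theorem exists_dcoef (j : Fin k) (l : Fin P.d) :
    ∃ c, ∀ p ∈ S.dom, fderiv ℂ (P.B l) p (dir j) = comb P.B c p := by
  set u : Rn k := EuclideanSpace.single j (1 : ℝ) with hu
  have hB : IsComplete S.dom (P.B l) :=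
    complete_congr (P.complete (Pi.single l 1)) fun z _ => by simp [comb, Pi.single_apply, ite_smul]
  refine exists_deriv P (F := fun t p => P.B l (tr (t • u) p))
    (G := fun p => fderiv ℂ (P.B l) p (dir j)) (t₀ := 0) (fun t => ?_) fun p hp => ?_
  · refine complete_congr (complete_push P (isAut_tr S (-(t • u))) hB) fun z _ => ?_
    rw [push, fderiv_tr, neg_neg]
    rfl
  · have h1 : HasDerivAt (fun t : ℝ => tr (t • u) p) ((0 : Cn m), rC u) 0 := by
      have h : HasDerivAt (fun s : ℝ => p.2 + s • rC u) (rC u) 0 := by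
        simpa using ((hasDerivAt_id (0 : ℝ)).smul_const (rC u)).const_add p.2
      simpa [tr] using (hasDerivAt_const (0 : ℝ) p.1).prodMk h
    refine ((((diff_B P l).differentiableAt
      ((Cayley.isOpen_dom S).mem_nhds hp)).hasFDerivAt.restrictScalars ℝ).comp_hasDerivAt_of_eq
      0 h1 ?_).congr_deriv rfl
    simp [tr]

/-- The coefficients of a derivative in a real direction. -/
def dcoef (j : Fin k) (l : Fin P.d) : Fin P.d → ℝ := (exists_dcoef P j l).choose

/-- The action of a derivative on complex coefficients. -/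
def Dop (ζ : Cn k) : (Fin P.d → ℂ) →L[ℂ] (Fin P.d → ℂ) :=
  ∑ j, ∑ l, (ζ j) •
    (ContinuousLinearMap.proj (R := ℂ) (φ := fun _ : Fin P.d => ℂ) l).smulRight (emb P (dcoef P j l))

theorem Dop_apply (ζ : Cn k) (v : Fin P.d → ℂ) :
    Dop P ζ v = ∑ j, ∑ l, (ζ j * v l) • emb P (dcoef P j l) := by
  simp [Dop, sum_apply, smul_smul]

theorem hasFDerivAt_combC (v : Fin P.d → ℂ) {p : Mod m k} (hp : p ∈ S.dom) :
    HasFDerivAt (combC P v) (∑ i, v i • fderiv ℂ (P.B i) p) p := by
  unfold combC
  exact HasFDerivAt.fun_sum fun i _ =>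
    ((diff_B P i).differentiableAt ((Cayley.isOpen_dom S).mem_nhds hp)).hasFDerivAt.const_smul (v i)

theorem combC_sum {ι : Type*} (s : Finset ι) (f : ι → Fin P.d → ℂ) (p : Mod m k) :
    combC P (∑ i ∈ s, f i) p = ∑ i ∈ s, combC P (f i) p := by
  simp only [combC, Finset.sum_apply, Finset.sum_smul]
  exact Finset.sum_comm

theorem combC_smul (a : ℂ) (v : Fin P.d → ℂ) (p : Mod m k) :
    combC P (a • v) p = a • combC P v p := by
  simp [combC, Finset.smul_sum, smul_smul]

theorem combC_Dop (ζ : Cn k) (v : Fin P.d → ℂ) {p : Mod m k} (hp : p ∈ S.dom) :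
    (∑ i, v i • fderiv ℂ (P.B i) p) ((0 : Cn m), ζ) = combC P (Dop P ζ v) p := by
  have hz : ((0 : Cn m), ζ) = ∑ j, ζ j • (dir j : Mod m k) := by
    refine Prod.ext (by simp [dir, Prod.fst_sum]) ?_
    rw [Prod.snd_sum]
    ext i
    simp [dir, apply_ite ((↑) : ℝ → ℂ)]
  simp only [Dop_apply, combC_sum, combC_smul, combC_emb]
  rw [sum_apply, hz]
  simp only [map_sum, map_smul, smul_apply, smul_smul]
  rw [Finset.sum_comm]
  refine Finset.sum_congr rfl fun j _ => Finset.sum_congr rfl fun l _ => ?_
  rw [(exists_dcoef P j l).choose_spec p hp]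
  rfl

/-- The Taylor formula along a slice. -/
theorem combC_slice (v : Fin P.d → ℂ) {z : Cn m} {W w : Cn k} (hW : (z, W) ∈ S.dom)
    (hw : (z, w) ∈ S.dom) :
    combC P v (z, w) = combC P (NormedSpace.exp (Dop P (w - W)) v) (z, W) := by
  set A := Dop P (w - W) with hA
  set T : Set ℂ := {τ | (z, W + τ • (w - W)) ∈ S.dom} with hT
  have hTo : IsOpen T := (Cayley.isOpen_dom S).preimage (by fun_prop)
  have hTc : Convex ℝ T := by
    intro a ha b hb s t hs ht hst
    show (z, W + (s • a + t • b) • (w - W)) ∈ S.dom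
    have h := convex_slice S z ha hb hs ht hst
    have e : W + (s • a + t • b) • (w - W) =
        s • (W + a • (w - W)) + t • (W + b • (w - W)) := by
      rw [smul_add, smul_add, add_add_add_comm, ← add_smul, hst, one_smul, add_smul, smul_assoc,
        smul_assoc]
    rw [e]
    exact h
  have hd : ∀ τ ∈ T, HasDerivAt (fun τ : ℂ =>
      combC P (NormedSpace.exp ((1 - τ) • A) v) (z, W + τ • (w - W))) 0 τ := by
    intro τ hτ
    have hv := hasDerivAt_expv A v τ
    have hp : HasDerivAt (fun τ : ℂ => ((z, W + τ • (w - W)) : Mod m k)) ((0 : Cn m), w - W) τ := by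
      refine (hasDerivAt_const τ z).prodMk ?_
      simpa using ((hasDerivAt_id τ).smul_const (w - W)).const_add W
    have hs : HasDerivAt (fun τ : ℂ =>
        combC P (NormedSpace.exp ((1 - τ) • A) v) (z, W + τ • (w - W)))
        (∑ i, ((NormedSpace.exp ((1 - τ) • A) v) i • fderiv ℂ (P.B i) (z, W + τ • (w - W))
            ((0 : Cn m), w - W) +
          (-A (NormedSpace.exp ((1 - τ) • A) v)) i • P.B i (z, W + τ • (w - W)))) τ :=
      HasDerivAt.fun_sum fun i _ => ((hasDerivAt_pi.1 hv) i).fun_smul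
        (((diff_B P i).differentiableAt
          ((Cayley.isOpen_dom S).mem_nhds hτ)).hasFDerivAt.comp_hasDerivAt τ hp)
    refine hs.congr_deriv ?_
    have h1 := combC_Dop P (w - W) (NormedSpace.exp ((1 - τ) • A) v) hτ
    rw [sum_apply] at h1
    simp only [smul_apply] at h1
    rw [Finset.sum_add_distrib, h1, ← hA]
    simp [combC]
  have h0 : (0 : ℂ) ∈ T := by simpa [hT] using hW
  have h1 : (1 : ℂ) ∈ T := by simpa [hT] using hw
  have := hTo.is_const_of_deriv_eq_zero hTc.isPreconnected
    (fun τ hτ => (hd τ hτ).differentiableAt.differentiableWithinAt)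
    (fun τ hτ => (hd τ hτ).deriv) h1 h0
  simp only [sub_self, sub_zero, (zero_smul ℂ A : (0 : ℂ) • A = 0),
    (one_smul ℂ A : (1 : ℂ) • A = A), NormedSpace.exp_zero] at this
  simpa using this

theorem differentiable_exp_Dop (W : Cn k) (v : Fin P.d → ℂ) :
    Differentiable ℂ fun w : Cn k => NormedSpace.exp (Dop P (w - W)) v := by
  have hD : Differentiable ℂ fun w : Cn k => Dop P (w - W) := by
    unfold Dop
    exact Differentiable.fun_sum fun j _ => Differentiable.fun_sum fun l _ =>
      ((Cayley.differentiable_coord j).comp (differentiable_id.sub_const W)).smul_const _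
  intro w
  exact ((NormedSpace.exp_analytic (𝕂 := ℂ) (Dop P (w - W))).differentiableAt.comp w
    (hD w)).clm_apply (differentiableAt_const v)

/-- A height over `z` inside the domain. -/
def hgt (S : Siegel m k) (z : Cn m) : Cn k := I • rC (S.H z z + S.nonempty_C.some)

theorem hgt_mem (z : Cn m) : (z, hgt S z) ∈ S.dom := by
  show iv (hgt S z) - S.H z z ∈ S.C
  simpa [hgt, Sym.iv_smul] using S.nonempty_C.some_mem

/-- The entire extension of a combination of fields. -/
def ext (c : Fin P.d → ℝ) (p : Mod m k) : Mod m k :=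
  combC P (NormedSpace.exp (Dop P (p.2 - hgt S p.1)) (emb P c)) (p.1, hgt S p.1)

theorem ext_eq (c : Fin P.d → ℝ) {p : Mod m k} (hp : p ∈ S.dom) : ext P c p = comb P.B c p := by
  rw [← combC_emb, ext, ← combC_slice P _ (hgt_mem _) hp]

theorem differentiable_ext (c : Fin P.d → ℝ) : Differentiable ℂ (ext P c) := by
  intro p₀
  set W := hgt S p₀.1 with hW
  have hopen : IsOpen {z : Cn m | (z, W) ∈ S.dom} :=
    (Cayley.isOpen_dom S).preimage (by fun_prop)
  have hev : ∀ᶠ p in 𝓝 p₀, ext P c p =
      combC P (NormedSpace.exp (Dop P (p.2 - W)) (emb P c)) (p.1, W) := by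
    filter_upwards [continuous_fst.continuousAt.preimage_mem_nhds
      (hopen.mem_nhds (hgt_mem (S := S) p₀.1))] with p hp
    set z := p.1 with hz
    have hd : ∀ {W : Cn k}, (z, W) ∈ S.dom → Differentiable ℂ fun w : Cn k =>
        combC P (NormedSpace.exp (Dop P (w - W)) (emb P c)) (z, W) := fun {W} _ =>
      Differentiable.fun_sum fun i _ =>
        (differentiable_pi.1 (differentiable_exp_Dop P W (emb P c)) i).smul_const _
    have := Surface.eqOn_of_eventuallyEq isOpen_univ isPreconnected_univ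
      (hd (hgt_mem z)).differentiableOn (hd hp).differentiableOn (mem_univ W)
      (eventually_of_mem (((Cayley.isOpen_dom S).preimage
        (Continuous.prodMk continuous_const continuous_id)).mem_nhds (show (z, W) ∈ S.dom from hp))
        fun w (hw : (z, w) ∈ S.dom) => by
          dsimp only
          rw [← combC_slice P _ (hgt_mem z) hw, ← combC_slice P _ hp hw])
    exact this (mem_univ p.2)
  refine DifferentiableAt.congr_of_eventuallyEq ?_ hev
  refine DifferentiableAt.fun_sum fun i _ => DifferentiableAt.fun_smul ?_ ?_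
  · exact (differentiable_pi.1 (differentiable_exp_Dop P W (emb P c)) i).differentiableAt.comp p₀
      differentiableAt_snd
  · exact ((diff_B P i).differentiableAt ((Cayley.isOpen_dom S).mem_nhds (hgt_mem _))).comp p₀
      (differentiableAt_fst.prodMk (differentiableAt_const W))

theorem ext_add (c c' : Fin P.d → ℝ) (p : Mod m k) :
    ext P (c + c') p = ext P c p + ext P c' p := by
  have : emb P (c + c') = emb P c + emb P c' := by ext i; simp [emb]
  simp [ext, this, combC, add_smul, Finset.sum_add_distrib]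

theorem ext_smul (t : ℝ) (c : Fin P.d → ℝ) (p : Mod m k) : ext P (t • c) p = t • ext P c p := by
  have : emb P (t • c) = (t : ℂ) • emb P c := by ext i; simp [emb]
  rw [ext, this, map_smul, combC_smul, Complex.coe_smul]
  rfl

/-- The extension, as a linear map at each point. -/
def extL (p : Mod m k) : (Fin P.d → ℝ) →L[ℝ] Mod m k :=
  LinearMap.toContinuousLinearMap
    { toFun := fun c => ext P c p
      map_add' := fun a b => ext_add P a b p
      map_smul' := fun t a => ext_smul P t a p }

@[simp] theorem extL_apply (p : Mod m k) (c : Fin P.d → ℝ) : extL P p c = ext P c p := rfl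

/-- An entire field, complete on the domain. -/
def Good (S : Siegel m k) (X : Mod m k → Mod m k) : Prop :=
  Differentiable ℂ X ∧ IsComplete S.dom X

/-- The identity theorem for entire fields. -/
theorem eq_of_eqOn (S : Siegel m k) {X Y : Mod m k → Mod m k} (hX : Differentiable ℂ X)
    (hY : Differentiable ℂ Y) (h : EqOn X Y S.dom) : X = Y := by
  obtain ⟨v, hv⟩ := S.nonempty_C
  funext p
  exact Surface.eqOn_of_eventuallyEq isOpen_univ isPreconnected_univ hX.differentiableOn
    hY.differentiableOn (mem_univ (base v))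
    (eventually_of_mem ((Cayley.isOpen_dom S).mem_nhds (base_mem S hv)) h) (mem_univ p)

theorem good_ext (c : Fin P.d → ℝ) : Good S (ext P c) :=
  ⟨differentiable_ext P c, complete_congr (P.complete c) fun _ hz => ext_eq P c hz⟩

theorem Good.exists_eq {X : Mod m k → Mod m k} (hX : Good S X) : ∃ c, X = ext P c := by
  obtain ⟨c, hc⟩ := P.span X hX.2
  exact ⟨c, eq_of_eqOn S hX.1 (differentiable_ext P c) fun z hz => by rw [hc hz, ext_eq P c hz]⟩

theorem ext_injective {c c' : Fin P.d → ℝ} (h : ext P c = ext P c') : c = c' := by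
  refine sub_eq_zero.1 (P.indep _ fun z hz => ?_)
  have h1 := ext_add P (c - c') c' z
  rw [sub_add_cancel, h, right_eq_add] at h1
  rw [← ext_eq P _ hz, h1]
  rfl

include P in
theorem Good.add {X Y : Mod m k → Mod m k} (hX : Good S X) (hY : Good S Y) :
    Good S fun p => X p + Y p := by
  obtain ⟨a, rfl⟩ := hX.exists_eq P
  obtain ⟨b, rfl⟩ := hY.exists_eq P
  simpa only [← ext_add] using good_ext P (a + b)

include P in
theorem Good.smul {X : Mod m k → Mod m k} (hX : Good S X) (t : ℝ) :
    Good S fun p => t • X p := by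
  obtain ⟨a, rfl⟩ := hX.exists_eq P
  simpa only [← ext_smul] using good_ext P (t • a)

include P in
/-- Differentiation along a parameter keeps fields good. -/
theorem Good.deriv {F : ℝ → Mod m k → Mod m k} {G : Mod m k → Mod m k} {t₀ : ℝ}
    (hF : ∀ t, Good S (F t)) (hG : ∀ p, HasDerivAt (fun t => F t p) (G p) t₀) : Good S G := by
  obtain ⟨cf, c', h1, h2⟩ := exists_coef P (fun t => (hF t).2) fun p _ => hG p
  have hFe : ∀ t, F t = ext P (cf t) := fun t =>
    eq_of_eqOn S (hF t).1 (differentiable_ext P _) fun z hz => by rw [h1 t hz, ext_eq P _ hz]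
  have : G = ext P c' := funext fun p => (hG p).unique (by
    simp only [hFe]
    exact (extL P p).hasFDerivAt.comp_hasDerivAt t₀ h2)
  exact this ▸ good_ext P c'

include P in
theorem Good.comp_tr {X : Mod m k → Mod m k} (hX : Good S X) (u : Rn k) :
    Good S fun p => X (tr u p) := by
  refine ⟨hX.1.comp (differentiable_tr u), complete_congr
    (complete_push P (isAut_tr S (-u)) hX.2) fun z _ => ?_⟩
  rw [push, fderiv_tr, neg_neg]
  rfl

include P in
/-- Derivatives in real vertical directions. -/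
theorem Good.dir {X : Mod m k → Mod m k} (hX : Good S X) (u : Rn k) :
    Good S fun p => fderiv ℂ X p ((0 : Cn m), rC u) := by
  refine Good.deriv P (F := fun t p => X (tr (t • u) p)) (t₀ := 0)
    (fun t => hX.comp_tr P _) fun p => ?_
  have h1 : HasDerivAt (fun t : ℝ => tr (t • u) p) ((0 : Cn m), rC u) 0 := by
    have h : HasDerivAt (fun s : ℝ => p.2 + s • rC u) (rC u) 0 := by
      simpa using ((hasDerivAt_id (0 : ℝ)).smul_const (rC u)).const_add p.2
    simpa [tr] using (hasDerivAt_const (0 : ℝ) p.1).prodMk h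
  exact (((hX.1 p).hasFDerivAt.restrictScalars ℝ).comp_hasDerivAt_of_eq 0 h1 (by simp [tr]))

include P in
theorem Good.comp_dil {X : Mod m k → Mod m k} (hX : Good S X) {s : ℝ} (hs : s ≠ 0) :
    Good S fun p => dil (s : ℂ) (X (dil ((s⁻¹ : ℝ) : ℂ) p)) := by
  refine ⟨(dil _).differentiable.comp (hX.1.comp (dil _).differentiable), complete_congr
    (complete_push P (isAut_dil S hs) hX.2) fun z _ => ?_⟩
  have h : fderiv ℂ (dil (m := m) (k := k) (s : ℂ)) (dil ((s⁻¹ : ℝ) : ℂ) z) = dil (s : ℂ) :=
    (dil (m := m) (k := k) (s : ℂ)).hasFDerivAt.fderiv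
  rw [push, h]

end

end Vale.Agent.P274.Full.Sym
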