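import Vale.Agent.P274.Full.Sym.Basic
import Vale.Agent.P274.Surface.Holo
import Mathlib.Analysis.SpecialFunctions.Exponential
import Mathlib.Analysis.Complex.Liouville
import Mathlib.Analysis.Complex.Schwarz
import Mathlib.Analysis.Complex.RealDeriv

/-!
The linear part of a complete field at one of its zeros.
-/

open Filter Metric Set Function Topology Complex Asymptotics

namespace Vale.Agent.P274.Full.Sym

noncomputable section

variable {m k : ℕ}

/-- Linear endomorphisms of the model space. -/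
abbrev Op (m k : ℕ) : Type := Mod m k →L[ℂ] Mod m k

/-- The one-parameter group of a linear map. -/
def ex (A : Op m k) (ζ : ℂ) : Op m k := NormedSpace.exp (ζ • A)

@[simp] theorem ex_zero (A : Op m k) : ex A 0 = 1 := by
  rw [ex, zero_smul ℂ A, NormedSpace.exp_zero]

theorem zero_ex (ζ : ℂ) : ex (0 : Op m k) ζ = 1 :=
  (congrArg NormedSpace.exp (smul_zero (A := Op m k) ζ)).trans NormedSpace.exp_zero

theorem comp_real {F : Type*} [NormedAddCommGroup F] [NormedSpace ℂ F] {f : ℂ → F} {f' : F} {t : ℝ}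
    (h : HasDerivAt f f' (t : ℂ)) : HasDerivAt (fun s : ℝ => f s) f' t := by
  simpa [Function.comp_def] using
    (h.hasFDerivAt.restrictScalars ℝ).comp_hasDerivAt t Complex.ofRealCLM.hasDerivAt

theorem smul_mul_op (c : ℂ) (A B : Op m k) : c • A * B = c • (A * B) :=
  Algebra.smul_mul_assoc c A B

theorem mul_smul_op (c : ℂ) (A B : Op m k) : A * c • B = c • (A * B) :=
  Algebra.mul_smul_comm c A B

theorem hasDerivAt_ex (A : Op m k) (ζ : ℂ) : HasDerivAt (ex A) (A * ex A ζ) ζ :=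
  hasDerivAt_exp_smul_const' A ζ

theorem commute_ex {A B : Op m k} (h : Commute A B) (ζ : ℂ) : Commute B (ex A ζ) :=
  have h1 : Commute B (ζ • A) := by
    show B * ζ • A = ζ • A * B
    rw [mul_smul_op, smul_mul_op, h.symm.eq]
  h1.exp_right

theorem hasDerivAt_ex_mul (A B : Op m k) (c : ℂ) (t : ℝ) :
    HasDerivAt (fun s : ℝ => ex A (c * s) * B) (c • A * (ex A (c * t) * B)) t := by
  have h1 : HasDerivAt (fun z : ℂ => c * z) c (t : ℂ) := by
    simpa using (hasDerivAt_id (t : ℂ)).const_mul c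
  have h2 : HasDerivAt (fun z : ℂ => ex A (c * z)) (c • (A * ex A (c * t))) (t : ℂ) :=
    (hasDerivAt_ex A (c * t)).scomp (t : ℂ) h1
  refine ((comp_real h2).mul_const B).congr_deriv ?_
  rw [smul_mul_op, smul_mul_op, mul_assoc]

/-- Solutions of `D' = A D`. -/
theorem eq_ex_mul {A : Op m k} {D : ℝ → Op m k} (h : ∀ t, HasDerivAt D (A * D t) t) (t : ℝ) :
    D t = ex A t * D 0 := by
  have key : ∀ D : ℝ → Op m k, (∀ t, HasDerivAt D (A * D t) t) → ∀ t : ℝ,
      ex A (-t) * D t = D 0 := by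
    intro D h t
    have hd : ∀ s, HasDerivAt (fun s : ℝ => ex A (-s) * D s) 0 s := fun s => by
      have h1 := hasDerivAt_ex_mul A 1 (-1) s
      simp only [mul_one, neg_one_mul, smul_mul_op] at h1
      replace h1 : HasDerivAt (fun s : ℝ => ex A (-(s : ℂ))) (-(A * ex A (-(s : ℂ)))) s :=
        h1.congr_deriv (neg_one_smul ℂ (A * ex A (-(s : ℂ))))
      have h2 := h1.fun_mul (h s)
      refine h2.congr_deriv ?_
      rw [← mul_assoc (ex A (-(s : ℂ))), ((commute_ex (Commute.refl A) (-(s : ℂ)))).eq, ← add_mul,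
        neg_add_cancel, zero_mul]
    have := is_const_of_deriv_eq_zero (fun s => (hd s).differentiableAt) (fun s => (hd s).deriv) t 0
    simpa using this
  have h1 : ∀ s : ℝ, HasDerivAt (fun s : ℝ => ex A s) (A * ex A s) s := fun s => by
    simpa using hasDerivAt_ex_mul A 1 1 s
  have h2 : ex A t * ex A (-t) = 1 := by
    have h3 := key (fun s => ex A s) h1 (-t)
    simpa using h3
  calc D t = ex A t * ex A (-t) * D t := by rw [h2, one_mul]
    _ = ex A t * D 0 := by rw [mul_assoc, key D h t]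

/-- A linear map whose one-parameter groups in both directions are bounded is zero. -/
theorem op_eq_zero {A : Op m k} {M N : ℝ} (h1 : ∀ t : ℝ, ‖ex A t‖ ≤ M)
    (h2 : ∀ t : ℝ, ‖ex A (I * t)‖ ≤ N) : A = 0 := by
  have hb : Bornology.IsBounded (range (ex A)) := by
    refine isBounded_iff_forall_norm_le.2 ⟨M * N, ?_⟩
    rintro _ ⟨ζ, rfl⟩
    have hD : ∀ s : ℝ, HasDerivAt (fun s : ℝ => ex A (s + I * ζ.im))
        (A * ex A (s + I * ζ.im)) s := fun s => by
      have h : HasDerivAt (fun z : ℂ => ex A (z + I * ζ.im)) (A * ex A (s + I * ζ.im)) (s : ℂ) :=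
        HasDerivAt.comp_add_const (s : ℂ) (I * ζ.im) (hasDerivAt_ex A _)
      exact comp_real h
    have h3 := eq_ex_mul hD ζ.re
    have h4 : (ζ.re : ℂ) + I * ζ.im = ζ := by rw [mul_comm I, Complex.re_add_im]
    simp only [h4, ofReal_zero, zero_add] at h3
    rw [h3]
    exact (norm_mul_le _ _).trans (mul_le_mul (h1 _) (h2 _) (norm_nonneg _)
      ((norm_nonneg _).trans (h1 0)))
  have hdiff : Differentiable ℂ (ex A) := fun ζ => (hasDerivAt_ex A ζ).differentiableAt
  have hc : ex A = fun _ => ex A 0 := funext fun ζ => hdiff.apply_eq_apply_of_bounded hb ζ 0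
  have := (hasDerivAt_ex A 0).unique (by rw [hc]; exact hasDerivAt_const 0 _)
  simpa using this

/-- A square zero linear map with bounded one-parameter group is zero. -/
theorem op_eq_zero_of_sq {A : Op m k} {M : ℝ} (hA : A * A = 0) (h1 : ∀ t : ℝ, ‖ex A t‖ ≤ M) :
    A = 0 := by
  have hD : ∀ t : ℝ, HasDerivAt (fun t : ℝ => (1 : Op m k) + t • A) (A * (1 + t • A)) t :=
    fun t => by
      refine (((hasDerivAt_id t).smul_const A).const_add 1).congr_deriv ?_
      rw [one_smul ℝ A, mul_add, mul_one, ← Complex.coe_smul t A, mul_smul_op, hA,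
        smul_zero (A := Op m k) (t : ℂ), add_zero]
  by_contra hne
  have hA0 : 0 < ‖A‖ := norm_pos_iff.2 hne
  obtain ⟨n, hn⟩ := exists_nat_gt ((M + ‖(1 : Op m k)‖) / ‖A‖)
  have h2 : (1 : Op m k) + (n : ℝ) • A = ex A (n : ℝ) := by
    have := eq_ex_mul hD n
    rwa [zero_smul ℝ A, add_zero, mul_one] at this
  have h3 : (n : ℝ) * ‖A‖ ≤ M + ‖(1 : Op m k)‖ := by
    have h4 := norm_sub_le (ex A (n : ℝ)) 1
    rw [← h2, add_sub_cancel_left, norm_smul, Real.norm_natCast] at h4
    have := h1 n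
    rw [← h2] at this
    linarith
  rw [div_lt_iff₀ hA0] at hn
  linarith

variable {V : Set (Mod m k)} {X : Mod m k → Mod m k} {φ : ℝ → Mod m k → Mod m k}

theorem flow_isAut (hφ : IsFlow V X φ) (t : ℝ) : IsAut V (φ t) (φ (-t)) :=
  ⟨hφ.1 t, hφ.1 _, hφ.2.1 t, hφ.2.1 _,
    fun z hz => by rw [← hφ.2.2.2.1 _ _ z hz, neg_add_cancel, hφ.2.2.1 z hz],
    fun z hz => by rw [← hφ.2.2.2.1 _ _ z hz, add_neg_cancel, hφ.2.2.1 z hz]⟩

theorem flow_neg (hφ : IsFlow V X φ) : IsFlow V (fun z => -X z) fun t => φ (-t) := by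
  refine ⟨fun t => hφ.1 _, fun t => hφ.2.1 _, fun z hz => ?_, fun s t z hz => ?_, fun t z hz => ?_⟩
  · show φ (-0) z = z
    rw [neg_zero, hφ.2.2.1 z hz]
  · show φ (-(s + t)) z = _
    rw [neg_add, hφ.2.2.2.1 _ _ z hz]
  · have := (hφ.2.2.2.2 (-t) z hz).scomp t ((hasDerivAt_id t).neg)
    simpa [Function.comp_def] using this

/-- A field is invariant under its flow. -/
theorem flow_push_self (hV : IsOpen V) (hφ : IsFlow V X φ) {z : Mod m k} (hz : z ∈ V) (t : ℝ) :
    fderiv ℂ (φ t) z (X z) = X (φ t z) := by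
  have h0 : HasDerivAt (fun s => φ s z) (X z) 0 := by
    simpa [hφ.2.2.1 z hz] using hφ.2.2.2.2 0 z hz
  have h1 : HasDerivAt (fun s => φ t (φ s z)) (fderiv ℂ (φ t) z (X z)) 0 :=
    (((hφ.1 t).differentiableAt (hV.mem_nhds hz)).hasFDerivAt.restrictScalars ℝ).comp_hasDerivAt_of_eq
      0 h0 (hφ.2.2.1 z hz).symm
  have h2 : HasDerivAt (fun s => φ t (φ s z)) (X (φ t z)) 0 := by
    have h3 : HasDerivAt (fun s => φ (t + s) z) (X (φ t z)) 0 :=
      HasDerivAt.comp_const_add t 0 (by rw [add_zero]; exact hφ.2.2.2.2 t z hz)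
    simp only [hφ.2.2.2.1 t _ z hz] at h3
    exact h3
  exact h1.unique h2

theorem flow_fixed (hV : IsOpen V) (hφ : IsFlow V X φ) {p : Mod m k} (hp : p ∈ V) (h0 : X p = 0)
    (t : ℝ) : φ t p = p := by
  have hd : ∀ s, HasDerivAt (fun s => φ s p) 0 s := fun s => by
    have := hφ.2.2.2.2 s p hp
    rwa [← flow_push_self hV hφ hp s, h0, map_zero] at this
  have := is_const_of_deriv_eq_zero (fun s => (hd s).differentiableAt) (fun s => (hd s).deriv) t 0
  rwa [hφ.2.2.1 p hp] at this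

theorem flow_approx (hφ : IsFlow V X φ) {p : Mod m k} {R L : ℝ} (hR : 0 < R) (hL : 0 < L)
    (hsub : closedBall p R ⊆ V)
    (hlip : ∀ x ∈ closedBall p R, ∀ y ∈ closedBall p R, ‖X y - X x‖ ≤ L * ‖y - x‖)
    (h0 : X p = 0) {x : Mod m k} (hx : x ∈ closedBall p (R / 2)) {t : ℝ} (ht : 0 ≤ t)
    (ht' : t ≤ R / (2 * (L * R + 1))) :
    ‖φ t x - x - t • X x‖ ≤ L * (L * R + 1) * t ^ 2 := by
  have hxR : x ∈ closedBall p R := closedBall_subset_closedBall (by linarith) hx
  have hxV : x ∈ V := hsub hxR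
  set M := L * R + 1 with hM
  have hM0 : 0 < M := by positivity
  have hXb : ∀ y ∈ closedBall p R, ‖X y‖ < M := fun y hy => by
    have h := hlip p (mem_closedBall_self hR.le) y hy
    rw [h0, sub_zero] at h
    rw [mem_closedBall, dist_eq_norm] at hy
    calc ‖X y‖ ≤ L * ‖y - p‖ := h
      _ ≤ L * R := by gcongr
      _ < M := by linarith
  have hc : ∀ s, HasDerivAt (fun s => φ s x - x) (X (φ s x)) s := fun s =>
    (hφ.2.2.2.2 s x hxV).sub_const x
  have hball : ∀ s ∈ Icc 0 t, ‖φ s x - x‖ ≤ M * s → φ s x ∈ closedBall p R := by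
    intro s hs hn
    rw [mem_closedBall, dist_eq_norm] at hx ⊢
    have h1 : M * s ≤ R / 2 := by
      have := hs.2.trans ht'
      rw [le_div_iff₀ (by positivity)] at this
      linarith
    calc ‖φ s x - p‖ = ‖(φ s x - x) + (x - p)‖ := by rw [sub_add_sub_cancel]
      _ ≤ R := (norm_add_le _ _).trans (by linarith)
  have hstay : ∀ s ∈ Icc 0 t, ‖φ s x - x‖ ≤ M * s := by
    intro s hs
    refine image_norm_le_of_norm_deriv_right_lt_deriv_boundary (a := 0) (b := t)
      (fun u _ => (hc u).continuousAt.continuousWithinAt) (fun u _ => (hc u).hasDerivWithinAt)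
      (B := fun u => M * u) (by simp [hφ.2.2.1 x hxV]) (B' := fun _ => M)
      (fun u => by simpa using (hasDerivAt_id u).const_mul M) ?_ hs
    exact fun u hu he => hXb _ (hball u ⟨hu.1, hu.2.le⟩ he.le)
  have hg : ∀ s, HasDerivAt (fun s => φ s x - x - s • X x) (X (φ s x) - X x) s := fun s => by
    simpa using (hc s).fun_sub ((hasDerivAt_id s).smul_const (X x))
  have := norm_image_sub_le_of_norm_deriv_le_segment' (a := 0) (b := t)
    (fun u _ => (hg u).hasDerivWithinAt) (C := L * M * t) (fun u hu => by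
      refine (hlip x hxR _ (hball u ⟨hu.1, hu.2.le⟩ (hstay u ⟨hu.1, hu.2.le⟩))).trans ?_
      rw [mul_assoc]
      gcongr
      exact (hstay u ⟨hu.1, hu.2.le⟩).trans (by gcongr; exact hu.2.le)) t ⟨ht, le_rfl⟩
  simpa [hφ.2.2.1 x hxV, sq, mul_assoc] using this

/-- The derivatives at a fixed point of a flow form the exponential group of the linear part. -/
theorem flow_fderiv_eq (hV : IsOpen V) (hX : DifferentiableOn ℂ X V) (hφ : IsFlow V X φ)
    {p : Mod m k} (hp : p ∈ V) (h0 : X p = 0) (t : ℝ) :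
    fderiv ℂ (φ t) p = ex (fderiv ℂ X p) t := by
  set A := fderiv ℂ X p with hA
  obtain ⟨R, hR, hsub⟩ := Metric.nhds_basis_closedBall.mem_iff.1 (hV.mem_nhds hp)
  obtain ⟨L₀, hL₀⟩ := (isCompact_closedBall p R).exists_bound_of_continuousOn
    ((Surface.continuousOn_fderiv hV hX).mono hsub)
  set L := max L₀ 1 with hLdef
  have hL : 0 < L := by positivity
  have hlip : ∀ x ∈ closedBall p R, ∀ y ∈ closedBall p R, ‖X y - X x‖ ≤ L * ‖y - x‖ :=
    fun x hx y hy => (convex_closedBall p R).norm_image_sub_le_of_norm_fderiv_le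
      (fun z hz => hX.differentiableAt (hV.mem_nhds (hsub hz)))
      (fun z hz => (hL₀ z hz).trans (le_max_left _ _)) hx hy
  set C := L * (L * R + 1) with hC
  have happ : ∀ x ∈ closedBall p (R / 2), ∀ s : ℝ, |s| ≤ R / (2 * (L * R + 1)) →
      ‖φ s x - x - s • X x‖ ≤ C * s ^ 2 := by
    intro x hx s hs
    rcases le_total 0 s with h | h
    · exact flow_approx hφ hR hL hsub hlip h0 hx h (le_trans (le_abs_self s) hs)
    · have := flow_approx (flow_neg hφ) hR hL hsub (fun a ha b hb => by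
        rw [neg_sub_neg, norm_sub_rev]; exact hlip a ha b hb) (by simp [h0]) hx
        (neg_nonneg.2 h) (le_trans (neg_le_abs s) hs)
      simpa [hC] using this
  have hfix := flow_fixed hV hφ hp h0
  have hdφ : ∀ s, HasFDerivAt (φ s) (fderiv ℂ (φ s) p) p := fun s =>
    ((hφ.1 s).differentiableAt (hV.mem_nhds hp)).hasFDerivAt
  have hest : ∀ s : ℝ, |s| ≤ R / (2 * (L * R + 1)) →
      ‖fderiv ℂ (φ s) p - 1 - s • A‖ ≤ C * s ^ 2 / (R / 2) := by
    intro s hs
    have hd : HasFDerivAt (fun x => φ s x - x - (s : ℂ) • X x)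
        (fderiv ℂ (φ s) p - ContinuousLinearMap.id ℂ _ - (s : ℂ) • A) p :=
      ((hdφ s).fun_sub (hasFDerivAt_id p)).fun_sub
        ((hX.differentiableAt (hV.mem_nhds hp)).hasFDerivAt.const_smul (s : ℂ))
    have hbs : ball p (R / 2) ⊆ V :=
      (ball_subset_closedBall.trans (closedBall_subset_closedBall (by linarith))).trans hsub
    have hdo : DifferentiableOn ℂ (fun x => φ s x - x - (s : ℂ) • X x) (ball p (R / 2)) :=
      (((hφ.1 s).mono hbs).fun_sub differentiableOn_id).fun_sub ((hX.mono hbs).fun_const_smul _)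
    have hm : MapsTo (fun x => φ s x - x - (s : ℂ) • X x) (ball p (R / 2))
        (closedBall (φ s p - p - (s : ℂ) • X p) (C * s ^ 2)) := fun x hx => by
      rw [mem_closedBall, dist_eq_norm, hfix, h0]
      simpa [Complex.coe_smul] using happ x (ball_subset_closedBall hx) s hs
    have := Complex.norm_fderiv_le_div_of_mapsTo_ball hdo hm (by linarith)
    rw [hd.fderiv] at this
    rw [← (Complex.coe_smul s A : (s : ℂ) • A = s • A)]
    exact this
  have hmul : ∀ s u, fderiv ℂ (φ (s + u)) p = fderiv ℂ (φ s) p * fderiv ℂ (φ u) p := fun s u => by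
    refine ((((hfix u).symm ▸ hdφ s : HasFDerivAt (φ s) (fderiv ℂ (φ s) p) (φ u p)).comp p
      (hdφ u)).congr_of_eventuallyEq ?_).fderiv
    exact eventually_of_mem (hV.mem_nhds hp) fun x hx => hφ.2.2.2.1 s u x hx
  have hD0 : fderiv ℂ (φ 0) p = 1 :=
    ((hasFDerivAt_id p).congr_of_eventuallyEq
      (eventually_of_mem (hV.mem_nhds hp) fun x hx => hφ.2.2.1 x hx)).fderiv
  have hat0 : HasDerivAt (fun s => fderiv ℂ (φ s) p) A 0 := by
    rw [hasDerivAt_iff_isLittleO_nhds_zero]
    refine IsBigO.trans_isLittleO (g := fun h : ℝ => h ^ 2) ?_ (isLittleO_pow_id (by norm_num))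
    refine IsBigO.of_bound (C / (R / 2)) ?_
    filter_upwards [closedBall_mem_nhds (0 : ℝ) (show 0 < R / (2 * (L * R + 1)) by positivity)]
      with s hs
    rw [mem_closedBall, dist_zero_right, Real.norm_eq_abs] at hs
    rw [zero_add, hD0, Real.norm_of_nonneg (sq_nonneg s)]
    exact (hest s hs).trans (le_of_eq (by ring))
  have hder : ∀ u, HasDerivAt (fun s => fderiv ℂ (φ s) p) (A * fderiv ℂ (φ u) p) u := fun u => by
    have h1 : HasDerivAt (fun s => fderiv ℂ (φ s) p * fderiv ℂ (φ u) p) (A * fderiv ℂ (φ u) p)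
        0 := hat0.mul_const _
    refine (HasDerivAt.congr_of_eventuallyEq (f := fun s => fderiv ℂ (φ (s - u)) p * fderiv ℂ (φ u) p)
      ?_ (Eventually.of_forall fun s => ?_))
    · exact HasDerivAt.comp_sub_const u u (by rw [sub_self]; exact h1)
    · dsimp only
      rw [← hmul, sub_add_cancel]
  simpa [hD0] using eq_ex_mul hder t

variable (P : LieData V)

include P in
theorem exists_bound_ex (hV : IsOpen V) {p : Mod m k} (hp : p ∈ V) (hX : IsComplete V X)
    (h0 : X p = 0) : ∃ M, ∀ t : ℝ, ‖ex (fderiv ℂ X p) t‖ ≤ M := by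
  obtain ⟨M, hM⟩ := P.iso p hp
  obtain ⟨φ, hφ⟩ := hX.2
  exact ⟨M, fun t => by
    rw [← flow_fderiv_eq hV hX.1 hφ hp h0 t]
    exact hM _ _ (flow_isAut hφ t) (flow_fixed hV hφ hp h0 t)⟩

include P in
/-- A complete field with a zero of second order is zero. -/
theorem eqOn_zero_of_fderiv (hV : IsOpen V) {p : Mod m k} (hp : p ∈ V) (hX : IsComplete V X)
    (h0 : X p = 0) (h1 : fderiv ℂ X p = 0) : EqOn X 0 V := by
  obtain ⟨φ, hφ⟩ := hX.2
  intro z hz
  have hid : ∀ t, φ t z = z := fun t => by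
    refine P.uniq p hp _ _ (flow_isAut hφ t) (flow_fixed hV hφ hp h0 t) ?_ hz
    rw [flow_fderiv_eq hV hX.1 hφ hp h0 t, h1]
    rw [zero_ex]
    rfl
  have := hφ.2.2.2.2 0 z hz
  simp only [hid] at this
  exact this.unique (hasDerivAt_const 0 z)

end

end Vale.Agent.P274.Full.Sym
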