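import Vale.Agent.P274.Full.Sym.Inject
import Mathlib.Analysis.LocallyConvex.Separation
import Mathlib.Analysis.Calculus.LocalExtr.Basic
import Mathlib.Analysis.Analytic.IsolatedZeros
import Mathlib.Analysis.InnerProductSpace.Calculus

/-!
The values at the base point of the fields of weight five and six vanish.
-/

open Filter Metric Set Function Topology Complex
open scoped ComplexConjugate

namespace Vale.Agent.P274.Full.Sym

noncomputable section

variable {m k : ℕ} {S : Siegel m k}

@[fun_prop]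
theorem differentiable_fl (l : Rn k →L[ℝ] ℝ) : Differentiable ℂ (fl (k := k) l) := (fl l).differentiable

@[fun_prop]
theorem differentiable_herm (S : Siegel m k) (b : Cn m) : Differentiable ℂ (herm S b) :=
  (herm S b).differentiable

theorem nu_ext {v : Rn k} (h : ∀ l, S.ν l v = 0) : v = 0 := by
  have h1 : rC v = 0 := Cayley.fvec_injective S (by
    rw [map_zero]
    funext l
    simp [Cayley.fvec, Cayley.fc, h l])
  simpa using congrArg rv h1

theorem nonneg_H {l : Rn k →L[ℝ] ℝ} (hl : ∀ v ∈ S.C, 0 < l v) (a : Cn m) :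
    0 ≤ l (S.H a a) := by
  obtain ⟨v, hv⟩ := S.nonempty_C
  by_contra hneg
  push Not at hneg
  set T := (l v + 1) / -(l (S.H a a)) with hT
  have hT0 : 0 ≤ T := div_nonneg (by linarith [hl v hv]) (by linarith)
  have h := hl _ (S.add_H ((Real.sqrt T : ℂ) • a) v hv)
  rw [H_smul_smul, normSq_ofReal, Real.mul_self_sqrt hT0, map_add, map_smul, smul_eq_mul] at h
  have : T * -(l (S.H a a)) = l v + 1 := div_mul_cancel₀ _ (by linarith)
  linarith

variable (P : LieData S.dom)

omit P in
/-- Fields of weight zero are real translations. -/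
theorem weight_zero {e : Rn k} (he : e ∈ S.C) {X : Mod m k → Mod m k} (hX : Good S X) (h : Wt 0 X) :
    ∃ u : Rn k, ∀ p, X p = ((0 : Cn m), rC u) := by
  have h1 : ∀ (p : Mod m k) (t : ℂ), t ≠ 0 →
      t • (X (dil t p)).1 = (X p).1 ∧ (X (dil t p)).2 = (X p).2 := fun p t ht => by
    have a := h t p
    constructor
    · have a1 : t • t • (X (dil t p)).1 = t • (X p).1 := by
        simpa [sq, mul_smul] using congrArg Prod.fst a
      exact smul_right_injective _ ht a1
    · have a2 : t ^ 2 • (X (dil t p)).2 = t ^ 2 • (X p).2 := by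
        simpa using congrArg Prod.snd a
      exact smul_right_injective _ (pow_ne_zero 2 ht) a2
  have h2 : ∀ p, (X p).1 = 0 ∧ (X p).2 = (X 0).2 := fun p => by
    have hc : Continuous fun t : ℂ => X (dil t p) :=
      hX.1.continuous.comp (continuous_iff_continuousAt.2 fun t => (hasDerivAt_dil p t).continuousAt)
    constructor
    · have e1 := Continuous.ext_on (dense_compl_singleton (0 : ℂ)) (continuous_id.smul hc.fst)
        (continuous_const (y := (X p).1)) fun t ht => (h1 p t ht).1
      simpa using (congrFun e1 0).symm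
    · have e2 := Continuous.ext_on (dense_compl_singleton (0 : ℂ)) hc.snd
        (continuous_const (y := (X p).2)) fun t ht => (h1 p t ht).2
      have e3 : (X (dil 0 p)).2 = (X p).2 := congrFun e2 0
      rw [← e3]
      congr 2
      simp [Prod.ext_iff]
  have hconst : ∀ p, X p = ((0 : Cn m), (X 0).2) := fun p => Prod.ext (h2 p).1 (h2 p).2
  have hiv : iv (X 0).2 = 0 := by
    refine nu_ext (S := S) fun l => ?_
    obtain ⟨φ, hφ⟩ := hX.2.2
    have hp := base_mem S he
    have hd : ∀ t : ℝ, HasDerivAt (fun s => φ s (base e) - s • ((0 : Cn m), (X 0).2)) 0 t := fun t => by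
      have := (hφ.2.2.2.2 t _ hp).fun_sub ((hasDerivAt_id t).smul_const ((0 : Cn m), (X 0).2))
      refine this.congr_deriv ?_
      rw [hconst, one_smul, sub_self]
    have hmem : ∀ t : ℝ, 0 < S.ν l e + t * S.ν l (iv (X 0).2) := fun t => by
      have h3 := is_const_of_deriv_eq_zero (fun s => (hd s).differentiableAt)
        (fun s => (hd s).deriv) t 0
      simp only [zero_smul, sub_zero, hφ.2.2.1 _ hp, sub_eq_iff_eq_add] at h3
      have h4 := S.pos l _ (hφ.2.1 t hp : iv (φ t (base e)).2 - _ ∈ S.C)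
      rw [h3] at h4
      simpa [axis, Sym.iv_smul] using h4
    by_contra hne
    have := hmem (-(S.ν l e) / S.ν l (iv (X 0).2))
    rw [div_mul_cancel₀ _ hne] at this
    linarith
  refine ⟨rv (X 0).2, fun p => (hconst p).trans (Prod.ext rfl ?_)⟩
  have := re_add_im (X 0).2
  rw [hiv, map_zero, smul_zero, add_zero] at this
  exact this.symm

include P in
/-- The value on the axis of a field of even weight is real. -/
theorem real_snd {e : Rn k} (he : e ∈ S.C) (q : ℕ) :
    ∀ X, Good S X → Wt (2 * q) X → ∃ u : Rn k, X (axis e 1) = ((0 : Cn m), rC u) := by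
  induction q with
  | zero =>
    intro X hX h
    obtain ⟨u, hu⟩ := weight_zero he hX h
    exact ⟨u, hu _⟩
  | succ q ih =>
    intro X hX h
    obtain ⟨u, hu⟩ := ih (De e X) (hX.dir P e) (Wt.dir hX.1 (n := 2 * q) (by exact h) _)
    rw [De_axis (q := q + 1) (Or.inl rfl) hX.1 h, one_pow, mul_one] at hu
    refine ⟨((q : ℝ) + 1)⁻¹ • u, ?_⟩
    have hq : ((q : ℂ) + 1) ≠ 0 := by exact_mod_cast q.succ_ne_zero
    apply smul_right_injective _ hq
    dsimp only
    push_cast at hu
    rw [hu, map_smul, ← Complex.coe_smul, Prod.smul_mk, smul_zero, smul_smul]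
    push_cast
    rw [mul_inv_cancel₀ hq, one_smul]

/-- The two point inequality for a self map of the upper half plane. -/
theorem pick {f : ℂ → ℂ} (hd : DifferentiableOn ℂ f {τ | 0 < τ.im})
    (hm : ∀ τ : ℂ, 0 < τ.im → 0 < (f τ).im) :
    normSq (f (2 * I) - f I) ≤ (f (2 * I)).im * (f I).im / 2 := by
  have hIm : 0 < (f I).im := hm I (by simp)
  set T : ℂ → ℂ := fun s => I * (1 + s) / (1 - s) with hT
  have hTm : ∀ s ∈ ball (0 : ℂ) 1, 0 < (T s).im ∧ (1 : ℂ) - s ≠ 0 := fun s hs => by
    rw [mem_ball_zero_iff] at hs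
    have hne : (1 : ℂ) - s ≠ 0 := sub_ne_zero.2 fun h => by simp [← h] at hs
    refine ⟨?_, hne⟩
    have hs2 : normSq s < 1 := by
      rw [Complex.normSq_eq_norm_sq]
      nlinarith [norm_nonneg s]
    rw [normSq_apply] at hs2
    simp only [hT, div_im, mul_re, mul_im, I_re, I_im, add_re, add_im, one_re, one_im, sub_re,
      sub_im, zero_mul, one_mul, zero_sub, zero_add]
    rw [← sub_div]
    exact div_pos (by nlinarith) (normSq_pos.2 hne)
  have hden : ∀ τ : ℂ, 0 < τ.im → f τ - conj (f I) ≠ 0 := fun τ hτ h => by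
    have := congrArg Complex.im h
    simp at this
    linarith [hm τ hτ]
  have hle : ∀ τ : ℂ, 0 < τ.im → normSq (f τ - conj (f I)) =
      normSq (f τ - f I) + 4 * (f τ).im * (f I).im := fun τ _ => by
    simp [normSq_apply]
    ring
  have hg : DifferentiableOn ℂ (fun s => (f (T s) - f I) / (f (T s) - conj (f I))) (ball 0 1) := by
    have hTd : DifferentiableOn ℂ T (ball 0 1) :=
      DifferentiableOn.div (by fun_prop) (by fun_prop) fun s hs => (hTm s hs).2
    have h1 := hd.comp hTd fun s hs => (hTm s hs).1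
    exact (h1.fun_sub (differentiableOn_const _)).div (h1.fun_sub (differentiableOn_const _))
      fun s hs => hden _ (hTm s hs).1
  have hmaps : MapsTo (fun s => (f (T s) - f I) / (f (T s) - conj (f I))) (ball 0 1)
      (closedBall 0 1) := fun s hs => by
    rw [mem_closedBall_zero_iff, norm_div, div_le_one (norm_pos_iff.2 (hden _ (hTm s hs).1))]
    rw [← pow_le_pow_iff_left₀ (norm_nonneg _) (norm_nonneg _) two_ne_zero,
      ← Complex.normSq_eq_norm_sq, ← Complex.normSq_eq_norm_sq, hle _ (hTm s hs).1]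
    nlinarith [hm _ (hTm s hs).1, mul_pos (hm _ (hTm s hs).1) hIm]
  have h3 : (1 / 3 : ℂ) ∈ ball (0 : ℂ) 1 := by norm_num
  have := Complex.norm_le_norm_of_mapsTo_ball hg hmaps (by simp [hT]) (z := (1 / 3 : ℂ))
    (mem_ball_zero_iff.1 h3)
  rw [show T (1 / 3) = 2 * I by simp [hT]; ring] at this
  have h2I : 0 < (2 * I : ℂ).im := by simp
  rw [norm_div, div_le_iff₀ (norm_pos_iff.2 (hden _ h2I))] at this
  have := pow_le_pow_left₀ (norm_nonneg _) this 2
  rw [mul_pow, ← Complex.normSq_eq_norm_sq, ← Complex.normSq_eq_norm_sq,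
    ← Complex.normSq_eq_norm_sq, hle _ h2I] at this
  norm_num at this
  linarith

/-- Derivative of the squared norm. -/
theorem hasDerivAt_normSq {u : ℝ → ℂ} {u' : ℂ} {t : ℝ} (h : HasDerivAt u u' t) :
    HasDerivAt (fun s => normSq (u s)) (2 * ((u t).re * u'.re + (u t).im * u'.im)) t := by
  have hr : HasDerivAt (fun s => (u s).re) u'.re t := Complex.reCLM.hasFDerivAt.comp_hasDerivAt t h
  have hi : HasDerivAt (fun s => (u s).im) u'.im t := Complex.imCLM.hasFDerivAt.comp_hasDerivAt t h
  simp only [normSq_apply]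
  exact ((hr.fun_mul hr).fun_add (hi.fun_mul hi)).congr_deriv (by ring)

include P in
/-- A field of weight six vanishes on the axis. -/
theorem six {e : Rn k} (he : e ∈ S.C) {X : Mod m k → Mod m k} (hX : Good S X) (h : Wt 6 X) :
    X (base e) = 0 := by
  obtain ⟨u, hu⟩ := real_snd P he 3 X hX h
  suffices hu0 : u = 0 by
    rw [axis_pow (q := 3) (Or.inl rfl) hX.1 h, hu, hu0, map_zero]
    exact smul_zero _
  refine nu_ext (S := S) fun j => ?_
  obtain ⟨φ, hφ⟩ := hX.2.2
  have hje := S.pos j e he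
  set f : ℝ → ℂ → ℂ := fun t τ => fl (S.ν j) (φ t (axis e τ)).2 / (S.ν j e : ℂ) with hf
  have hdiff : ∀ t, DifferentiableOn ℂ (f t) {τ | 0 < τ.im} := fun t => by
    have h1 : DifferentiableOn ℂ (fun τ => φ t (axis e τ)) {τ | 0 < τ.im} :=
      (hφ.1 t).comp (fun τ _ => (hasDerivAt_axis e τ).differentiableAt.differentiableWithinAt)
        fun τ hτ => axis_mem S he hτ
    exact ((fl _).differentiable.comp_differentiableOn
      (differentiable_snd.comp_differentiableOn h1)).div_const _
  have hmaps : ∀ t, ∀ τ : ℂ, 0 < τ.im → 0 < (f t τ).im := fun t τ hτ => by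
    simp only [hf, div_ofReal_im, fl_im]
    refine div_pos ?_ hje
    have h4 := S.pos j _ (hφ.2.1 t (axis_mem S he hτ) : iv (φ t (axis e τ)).2 - _ ∈ S.C)
    rw [map_sub] at h4
    linarith [nonneg_H (S.pos j) (φ t (axis e τ)).1]
  have h0 : ∀ τ : ℂ, 0 < τ.im → f 0 τ = τ := fun τ hτ => by
    simp only [hf, hφ.2.2.1 _ (axis_mem S he hτ)]
    simp [axis, hje.ne']
  have hder : ∀ τ : ℂ, 0 < τ.im →
      HasDerivAt (fun t => f t τ) (τ ^ 3 * (S.ν j u / S.ν j e : ℝ)) 0 := fun τ hτ => by
    have h1 := hφ.2.2.2.2 0 _ (axis_mem S he hτ)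
    rw [hφ.2.2.1 _ (axis_mem S he hτ), axis_pow (q := 3) (Or.inl rfl) hX.1 h, hu] at h1
    have h2 := ((((fl (S.ν j)).comp (ContinuousLinearMap.snd ℂ (Cn m) (Cn k))).hasFDerivAt
      (x := φ 0 (axis e τ))).restrictScalars ℝ).comp_hasDerivAt 0 h1
    refine (h2.div_const (S.ν j e : ℂ)).congr_deriv ?_
    simp [map_smul]
    ring
  set a := S.ν j u / S.ν j e
  have d1 := hder I (by simp)
  have d2 := hder (2 * I) (by simp)
  set F : ℝ → ℝ := fun t => normSq (f t (2 * I) - f t I) - (f t (2 * I)).im * (f t I).im / 2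
  have hF : HasDerivAt F (-(9 * a)) 0 := by
    have hi1 : HasDerivAt (fun t => (f t I).im) (I ^ 3 * (a : ℂ)).im 0 :=
      Complex.imCLM.hasFDerivAt.comp_hasDerivAt (0 : ℝ) d1
    have hi2 : HasDerivAt (fun t => (f t (2 * I)).im) ((2 * I) ^ 3 * (a : ℂ)).im 0 :=
      Complex.imCLM.hasFDerivAt.comp_hasDerivAt (0 : ℝ) d2
    refine ((hasDerivAt_normSq (d2.fun_sub d1)).fun_sub ((hi2.fun_mul hi1).div_const 2)).congr_deriv ?_
    rw [h0 I (by simp), h0 (2 * I) (by simp)]
    simp [pow_succ]
    ring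
  have hmax : IsLocalMax F 0 := Eventually.of_forall fun t => by
    have := pick (hdiff t) (hmaps t)
    simp only [F]
    rw [h0 I (by simp), h0 (2 * I) (by simp)]
    simp [normSq_apply] at this ⊢
    linarith
  have ha : a = 0 := by linarith [hmax.hasDerivAt_eq_zero hF]
  exact (div_eq_zero_iff.1 ha).resolve_right hje.ne'

theorem cs {l : Rn k →L[ℝ] ℝ} (hl : ∀ v ∈ S.C, 0 < l v) {b : Cn m} (hb : l (S.H b b) = 1)
    (z : Cn m) : normSq (fl l (herm S b z)) ≤ l (S.H z z) := by
  set A := fl l (herm S b z) with hA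
  have h1 := nonneg_H hl (z - A • b)
  have e1 : l (S.H (A • b) z) = normSq A := by
    rw [H_smul_left, S.symm b z, S.symm b (I • z), H_I_left, map_sub, map_smul, map_smul, map_neg,
      normSq_apply, hA, fl_re, fl_im, rv_herm, iv_herm]
    simp
  simp only [map_sub, sub_apply] at h1
  rw [S.symm z (A • b), e1, H_smul_smul, map_smul, hb] at h1
  simp at h1
  linarith

/-- An automorphism of the disc moves two points no further apart. -/
theorem schwarz_two {h : ℂ → ℂ} (hd : DifferentiableOn ℂ h (ball 0 1))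
    (hm : MapsTo h (ball 0 1) (ball 0 1)) {s : ℂ} (hs : s ∈ ball (0 : ℂ) 1) :
    normSq (h s - h 0) ≤ normSq s * normSq (1 - conj (h 0) * h s) := by
  have h0 := hm (mem_ball_self one_pos)
  rw [mem_ball_zero_iff] at h0
  have hden : ∀ z ∈ ball (0 : ℂ) 1, (1 : ℂ) - conj (h 0) * h z ≠ 0 := fun z hz he => by
    have h1 := hm hz
    rw [mem_ball_zero_iff] at h1
    have := congrArg norm (sub_eq_zero.1 he)
    rw [norm_one, norm_mul, RCLike.norm_conj] at this
    nlinarith [norm_nonneg (h z), norm_nonneg (h 0)]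
  have hg : DifferentiableOn ℂ (fun z => (h z - h 0) / (1 - conj (h 0) * h z)) (ball 0 1) :=
    (hd.fun_sub (differentiableOn_const _)).div
      ((differentiableOn_const _).fun_sub ((differentiableOn_const _).fun_mul hd)) hden
  have hmaps : MapsTo (fun z => (h z - h 0) / (1 - conj (h 0) * h z)) (ball 0 1)
      (closedBall 0 1) := fun z hz => by
    rw [mem_closedBall_zero_iff, norm_div, div_le_one (norm_pos_iff.2 (hden z hz))]
    rw [← pow_le_pow_iff_left₀ (norm_nonneg _) (norm_nonneg _) two_ne_zero,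
      ← Complex.normSq_eq_norm_sq, ← Complex.normSq_eq_norm_sq]
    have h1 := hm hz
    rw [mem_ball_zero_iff, ← pow_lt_one_iff_of_nonneg (norm_nonneg _) two_ne_zero,
      ← Complex.normSq_eq_norm_sq] at h1
    have h2 : normSq (h 0) < 1 := by
      rw [Complex.normSq_eq_norm_sq]
      nlinarith [norm_nonneg (h 0)]
    simp [normSq_apply] at *
    nlinarith [mul_pos (sub_pos.2 h1) (sub_pos.2 h2)]
  have h3 := Complex.norm_le_norm_of_mapsTo_ball hg hmaps (by simp) (mem_ball_zero_iff.1 hs)
  rw [norm_div, div_le_iff₀ (norm_pos_iff.2 (hden s hs))] at h3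
  have := pow_le_pow_left₀ (norm_nonneg _) h3 2
  rwa [mul_pow, ← Complex.normSq_eq_norm_sq, ← Complex.normSq_eq_norm_sq,
    ← Complex.normSq_eq_norm_sq] at this

/-- An even entire function with `re (conj s * h s) = 0` near zero vanishes. -/
theorem even_eq_zero {h : ℂ → ℂ} (hd : Differentiable ℂ h) (heven : ∀ s, h (-s) = h s)
    (hre : ∀ s ∈ ball (0 : ℂ) 1, (conj s * h s).re = 0) : h = 0 := by
  set ψ : ℂ → ℂ := fun s => h s / s
  set U : Set ℂ := ball (1 / 2) (1 / 4) with hU
  have hU1 : ∀ s ∈ U, s ∈ ball (0 : ℂ) 1 ∧ s ≠ 0 := fun s hs => by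
    rw [hU, mem_ball, dist_eq_norm] at hs
    refine ⟨?_, fun h0 => ?_⟩
    · rw [mem_ball_zero_iff]
      calc ‖s‖ = ‖(s - 1 / 2) + 1 / 2‖ := by rw [sub_add_cancel]
        _ ≤ ‖s - 1 / 2‖ + ‖(1 / 2 : ℂ)‖ := norm_add_le _ _
        _ < 1 := by norm_num at hs ⊢; linarith
    · subst h0
      norm_num at hs
  have hψ : ∀ s ∈ U, (ψ s).re = 0 := fun s hs => by
    have h1 := hre s (hU1 s hs).1
    have e1 : conj s * h s = (normSq s : ℂ) * ψ s := by
      rw [normSq_eq_conj_mul_self, mul_assoc, mul_div_cancel₀ _ (hU1 s hs).2]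
    rw [e1, re_ofReal_mul] at h1
    exact (mul_eq_zero.1 h1).resolve_left (fun hn => (hU1 s hs).2 (normSq_eq_zero.1 hn))
  have hder : ∀ s ∈ U, HasDerivAt ψ 0 s := fun s hs => by
    have h1 : DifferentiableAt ℂ ψ s := (hd s).div differentiableAt_id (hU1 s hs).2
    have key : ∀ c : ℂ, (deriv ψ s * c).re = 0 := fun c => by
      have h2 : HasDerivAt (fun z : ℂ => ψ (s + z * c)) (deriv ψ s * c) ((0 : ℝ) : ℂ) := by
        refine h1.hasDerivAt.comp_of_eq _ ?_ (by simp)
        simpa using ((hasDerivAt_id ((0 : ℝ) : ℂ)).mul_const c).const_add s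
      have h3 := Complex.reCLM.hasFDerivAt.comp_hasDerivAt (0 : ℝ) (comp_real h2)
      have h4 : (fun r : ℝ => Complex.reCLM (ψ (s + (r : ℂ) * c))) =ᶠ[𝓝 0] fun _ => (0 : ℝ) := by
        have : Tendsto (fun r : ℝ => s + (r : ℂ) * c) (𝓝 0) (𝓝 s) := by
          simpa using ((Complex.continuous_ofReal.mul continuous_const).const_add s).tendsto (0 : ℝ)
        exact (this.eventually (isOpen_ball.mem_nhds hs)).mono fun r hr => hψ _ hr
      exact h3.unique ((hasDerivAt_const (0 : ℝ) (0 : ℝ)).congr_of_eventuallyEq h4)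
    have ha := key 1
    have hb := key I
    simp at ha hb
    have h0 : deriv ψ s = 0 := Complex.ext (by simpa using ha) (by simpa using hb)
    exact h0 ▸ h1.hasDerivAt
  have hmid : (1 / 2 : ℂ) ∈ U := mem_ball_self (by norm_num)
  have hlin : h = fun s => ψ (1 / 2) * s := by
    funext s
    refine Surface.eqOn_of_eventuallyEq isOpen_univ isPreconnected_univ hd.differentiableOn
      (Differentiable.differentiableOn (by fun_prop)) (mem_univ (1 / 2 : ℂ))
      (eventually_of_mem (isOpen_ball.mem_nhds hmid) fun z hz => ?_) (mem_univ s)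
    have := isOpen_ball.is_const_of_deriv_eq_zero (convex_ball _ _).isPreconnected
      (fun x hx => (hder x hx).differentiableAt.differentiableWithinAt)
      (fun x hx => (hder x hx).deriv) hz hmid
    rw [← this, div_mul_cancel₀ _ (hU1 z hz).2]
  have h1 := heven 1
  rw [hlin] at h1
  simp only [mul_neg, mul_one, neg_eq_iff_add_eq_zero, ← two_mul, mul_eq_zero, two_ne_zero,
    false_or] at h1
  rw [hlin]
  funext s
  rw [h1, zero_mul]
  rfl

omit P in
theorem five_core {e : Rn k} {X : Mod m k → Mod m k} (hX : Good S X) (h : Wt 5 X)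
    {l : Rn k →L[ℝ] ℝ} (hl : ∀ v ∈ S.C, 0 < l v) (hle : l e = 1) {b : Cn m}
    (hb : l (S.H b b) = 1) (hdisc : ∀ r : ℝ, 0 ≤ r → r < 1 → e - r • S.H b b ∈ S.C) :
    fl l (herm S b (X (axis e 1)).1) = 0 := by
  set γ := fl l (herm S b (X (axis e 1)).1) with hγ
  set G : ℂ → ℂ → ℂ := fun τ s =>
    fl l (herm S b (X (s • b, τ • rC e)).1) + I * s * fl l (X (s • b, τ • rC e)).2 / 2 with hG
  have hG0 : ∀ τ, G τ 0 = τ ^ 2 * γ := fun τ => by
    have h1 : X (axis e τ) = τ ^ 2 • X (axis e 1) := axis_pow (q := 2) (Or.inr rfl) hX.1 h e τ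
    simp only [hG, zero_smul, mul_zero, zero_mul, zero_div, add_zero]
    rw [show (((0 : Cn m), τ • rC e) : Mod m k) = axis e τ from rfl, h1]
    simp [hγ]
  have hGeven : ∀ τ s, G τ (-s) = G τ s := fun τ s => by
    have h1 := h (-1) (s • b, τ • rC e)
    simp only [sc_apply, neg_one_sq, one_smul, neg_smul, Odd.neg_one_pow (show Odd 5 by decide)] at h1
    simp only [hG, neg_smul, h1]
    simp
  have hline : ∀ x : ℝ, ∀ s : ℂ, s ∈ ball (0 : ℂ) 1 →
      (conj s * (G ((x : ℂ) + I) s - G ((x : ℂ) + I) 0 +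
        conj (G ((x : ℂ) + I) 0) * s ^ 2)).re = 0 := by
    intro x s hs
    obtain ⟨φ, hφ⟩ := hX.2.2
    set d : ℂ → Mod m k := fun s => (s • b, ((x : ℂ) + I) • rC e) with hd
    have hdm : MapsTo d (ball 0 1) S.dom := fun s hs => by
      show iv (((x : ℂ) + I) • rC e) - S.H (s • b) (s • b) ∈ S.C
      rw [iv_axis, H_smul_smul]
      simp only [add_im, ofReal_im, I_im, zero_add, one_smul]
      refine hdisc _ (normSq_nonneg s) ?_
      rw [mem_ball_zero_iff] at hs
      rw [Complex.normSq_eq_norm_sq]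
      nlinarith [norm_nonneg s]
    set den : Mod m k → ℂ := fun p => fl l p.2 - x + I
    set v : Mod m k → ℂ := fun p => 2 * I * fl l (herm S b p.1) / den p with hv
    have hden : ∀ p ∈ S.dom, den p ≠ 0 ∧ 4 * normSq (fl l (herm S b p.1)) < normSq (den p) := by
      intro p hp
      have h1 := hl _ (hp : iv p.2 - S.H p.1 p.1 ∈ S.C)
      rw [map_sub] at h1
      have h2 := cs hl hb p.1
      have h3 := normSq_nonneg (fl l (herm S b p.1))
      have h4 : (den p).im = l (iv p.2) + 1 := by simp [den]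
      refine ⟨fun h0 => ?_, ?_⟩
      · rw [h0] at h4
        simp at h4
        linarith
      · rw [normSq_apply (den p), h4]
        nlinarith [mul_self_nonneg (den p).re, mul_self_nonneg (l (iv p.2) - 1)]
    have hvd : DifferentiableOn ℂ v S.dom := by
      simp only [hv, div_eq_mul_inv]
      exact (Differentiable.differentiableOn (by fun_prop)).mul
        ((Differentiable.differentiableOn (by fun_prop : Differentiable ℂ den)).inv
          fun p hp => (hden p hp).1)
    have hvm : MapsTo v S.dom (ball 0 1) := fun p hp => by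
      obtain ⟨h1, h2⟩ := hden p hp
      rw [mem_ball_zero_iff, ← pow_lt_one_iff_of_nonneg (norm_nonneg _) two_ne_zero,
        ← Complex.normSq_eq_norm_sq, hv, normSq_div, div_lt_one (normSq_pos.2 h1)]
      rw [normSq_mul, normSq_mul, normSq_I, normSq_ofNat]
      linarith
    have hdd : Differentiable ℂ d := by
      show Differentiable ℂ fun s : ℂ => ((s • b, ((x : ℂ) + I) • rC e) : Mod m k)
      fun_prop
    set hh : ℝ → ℂ → ℂ := fun t s => v (φ t (d s))
    have hhd : ∀ t, DifferentiableOn ℂ (hh t) (ball 0 1) := fun t =>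
      hvd.comp ((hφ.1 t).comp hdd.differentiableOn hdm) fun s hs => hφ.2.1 t (hdm hs)
    have hhm : ∀ t, MapsTo (hh t) (ball 0 1) (ball 0 1) := fun t s hs =>
      hvm (hφ.2.1 t (hdm hs))
    have hden0 : ∀ s, den (d s) = 2 * I := fun s => by
      simp [den, hd, map_smul, hle]
      ring
    have hnum : ∀ s : ℂ, fl l (herm S b (d s).1) = s := fun s => by
      simp [hd, map_smul, herm_self, hb]
    have hh0 : ∀ s ∈ ball (0 : ℂ) 1, hh 0 s = s := fun s hs => by
      simp only [hh, hv, hφ.2.2.1 _ (hdm hs), hden0, hnum]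
      field_simp
    have hhder : ∀ s ∈ ball (0 : ℂ) 1, HasDerivAt (fun t => hh t s) (G ((x : ℂ) + I) s) 0 := by
      intro s hs
      have h1 := hφ.2.2.2.2 0 _ (hdm hs)
      rw [hφ.2.2.1 _ (hdm hs)] at h1
      have hA := ((((fl l).comp ((herm S b).comp (ContinuousLinearMap.fst ℂ (Cn m) (Cn k)))).hasFDerivAt
        (x := φ 0 (d s))).restrictScalars ℝ).comp_hasDerivAt 0 h1
      have hB := ((((fl l).comp (ContinuousLinearMap.snd ℂ (Cn m) (Cn k))).hasFDerivAt
        (x := φ 0 (d s))).restrictScalars ℝ).comp_hasDerivAt 0 h1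
      have h2 := (hA.const_mul (2 * I)).fun_div ((hB.sub_const (x : ℂ)).add_const I)
        (hden _ (hφ.2.1 0 (hdm hs))).1
      refine h2.congr_deriv ?_
      simp only [hφ.2.2.1 _ (hdm hs), Function.comp, ContinuousLinearMap.coe_restrictScalars',
        ContinuousLinearMap.comp_apply, ContinuousLinearMap.coe_fst', ContinuousLinearMap.coe_snd']
      rw [show fl l (d s).2 - (x : ℂ) + I = 2 * I from hden0 s, hnum]
      simp only [hG, hd]
      field_simp
      ring_nf
      simp [I_sq]
      ring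
    have hs0 : (0 : ℂ) ∈ ball (0 : ℂ) 1 := mem_ball_self one_pos
    set F : ℝ → ℝ := fun t =>
      normSq (hh t s - hh t 0) - normSq s * normSq (1 - conj (hh t 0) * hh t s) with hF
    have hmax : IsLocalMax F 0 := Eventually.of_forall fun t => by
      simp only [hF, hh0 s hs, hh0 0 hs0]
      simp
      exact schwarz_two (hhd t) (hhm t) hs
    have hcj : HasDerivAt (fun t => conj (hh t 0)) (conj (G ((x : ℂ) + I) 0)) 0 :=
      Complex.conjCLE.toContinuousLinearMap.hasFDerivAt.comp_hasDerivAt (0 : ℝ) (hhder 0 hs0)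
    have hder := ((hasDerivAt_normSq ((hhder s hs).fun_sub (hhder 0 hs0))).fun_sub
      ((hasDerivAt_normSq ((hcj.fun_mul (hhder s hs)).const_sub 1)).const_mul (normSq s)))
    have h5 := hmax.hasDerivAt_eq_zero hder
    simp [hh0 s hs, hh0 0 hs0, normSq_apply] at h5
    simp [sq]
    linarith
  have hGd : ∀ τ, Differentiable ℂ (G τ) := fun τ => by
    have h1 : Differentiable ℂ fun s : ℂ => X (s • b, τ • rC e) := hX.1.comp (by fun_prop)
    exact ((fl l).differentiable.comp ((herm S b).differentiable.comp h1.fst)).fun_add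
      ((((differentiable_const I).fun_mul differentiable_id).fun_mul
        ((fl l).differentiable.comp h1.snd)).fun_mul (differentiable_const (2⁻¹ : ℂ)))
  have hGd' : ∀ s, Differentiable ℂ fun τ => G τ s := fun s => by
    have h1 : Differentiable ℂ fun τ : ℂ => X (s • b, τ • rC e) := hX.1.comp (by fun_prop)
    exact ((fl l).differentiable.comp ((herm S b).differentiable.comp h1.fst)).fun_add
      (((differentiable_const (I * s)).fun_mul
        ((fl l).differentiable.comp h1.snd)).fun_mul (differentiable_const (2⁻¹ : ℂ)))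
  have hzero : ∀ x : ℝ, ∀ s, G ((x : ℂ) + I) s - ((x : ℂ) + I) ^ 2 * γ +
      ((x : ℂ) - I) ^ 2 * conj γ * s ^ 2 = 0 := fun x s => by
    have h1 := congrFun (even_eq_zero (h := fun s => G ((x : ℂ) + I) s - G ((x : ℂ) + I) 0 +
      conj (G ((x : ℂ) + I) 0) * s ^ 2) (by have := hGd ((x : ℂ) + I); fun_prop)
      (fun s => by simp [hGeven]) (hline x)) s
    simpa [hG0, sub_eq_add_neg] using h1
  have hall : ∀ s τ, G τ s - τ ^ 2 * γ + (τ - 2 * I) ^ 2 * conj γ * s ^ 2 = 0 := fun s τ => by
    have hd1 : Differentiable ℂ fun ζ =>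
        G (ζ + I) s - (ζ + I) ^ 2 * γ + (ζ - I) ^ 2 * conj γ * s ^ 2 := by
      have := hGd' s
      fun_prop
    have hfreq : ∃ᶠ ζ in 𝓝[≠] (0 : ℂ),
        G (ζ + I) s - (ζ + I) ^ 2 * γ + (ζ - I) ^ 2 * conj γ * s ^ 2 = (fun _ => (0 : ℂ)) ζ := by
      have ht : Tendsto (fun x : ℝ => (x : ℂ)) (𝓝[≠] 0) (𝓝[≠] 0) :=
        tendsto_nhdsWithin_of_tendsto_nhds_of_eventually_within _
          ((Complex.continuous_ofReal.tendsto' 0 0 rfl).mono_left nhdsWithin_le_nhds)
          (eventually_nhdsWithin_of_forall fun x hx => by simpa using hx)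
      exact ht.frequently (Eventually.of_forall fun x => hzero x s).frequently
    have := AnalyticOnNhd.eqOn_of_preconnected_of_frequently_eq
      (hd1.differentiableOn.analyticOnNhd isOpen_univ)
      ((differentiable_const (0 : ℂ)).differentiableOn.analyticOnNhd isOpen_univ)
      isPreconnected_univ (mem_univ 0) hfreq (mem_univ (τ - I))
    simpa [sub_sub, ← two_mul] using this
  set p0 := fl l (herm S b (X (b, 0)).1)
  set q0 := fl l (X (b, 0)).2
  have hval : ∀ s : ℂ, s ≠ 0 → s ^ 4 * p0 + I * s ^ 6 * q0 / 2 - 4 * conj γ * s ^ 2 = 0 := fun s hs => by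
    have h1 := hall s 0
    have h2 := h s (b, 0)
    rw [show dil s ((b, 0) : Mod m k) = (s • b, 0) by simp] at h2
    have h3 : X (s • b, 0) = s ^ 3 • dil s (X (b, 0)) := by
      apply smul_right_injective _ (pow_ne_zero 2 hs)
      dsimp only
      rw [h2, smul_smul]
      ring_nf
    simp only [hG, zero_smul, h3] at h1
    simp [map_smul] at h1
    linear_combination h1 - (4 * conj γ * s ^ 2) * I_sq
  have e1 := hval 1 one_ne_zero
  have e2 := hval 2 two_ne_zero
  have e3 := hval 3 three_ne_zero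
  have : conj γ = 0 := by
    linear_combination (-3 / 8 : ℂ) * e1 + (3 / 80 : ℂ) * e2 - (1 / 360 : ℂ) * e3
  simpa using this

omit P in
/-- A field of weight five vanishes on the axis. -/
theorem five {e : Rn k} (he : e ∈ S.C) {X : Mod m k → Mod m k} (hX : Good S X) (h : Wt 5 X) :
    X (base e) = 0 := by
  have hsnd : (X (axis e 1)).2 = 0 := (axis_parity h e 1).2 (by decide)
  suffices hb0 : (X (axis e 1)).1 = 0 by
    rw [axis_pow (q := 2) (Or.inr rfl) hX.1 h, show X (axis e 1) = 0 from Prod.ext hb0 hsnd]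
    exact smul_zero _
  set b := (X (axis e 1)).1 with hb
  by_contra hb0
  set u := S.H b b
  obtain ⟨j, hj⟩ := S.pos_H b hb0
  set R : Set ℝ := {r | e - r • u ∈ S.C} with hR
  have hRo : IsOpen R := S.isOpen_C.preimage (by fun_prop)
  have h0R : (0 : ℝ) ∈ R := by simpa [hR] using he
  have hbdd : BddAbove R := ⟨S.ν j e / S.ν j u, fun r hr => by
    have := S.pos j _ hr
    rw [map_sub, map_smul, smul_eq_mul] at this
    rw [le_div_iff₀ hj]
    linarith⟩
  set r0 := sSup R
  have hr0 : 0 < r0 := by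
    obtain ⟨ε, hε, hεR⟩ := Metric.isOpen_iff.1 hRo 0 h0R
    exact (half_pos hε).trans_le (le_csSup hbdd (hεR (by simp [abs_of_pos hε, hε])))
  have hnot : e - r0 • u ∉ S.C := fun hm => by
    obtain ⟨ε, hε, hεR⟩ := Metric.isOpen_iff.1 hRo r0 hm
    have := le_csSup hbdd (hεR (a := r0 + ε / 2) (by simp [abs_of_pos hε, hε]))
    linarith
  have hbelow : ∀ r, 0 ≤ r → r < r0 → e - r • u ∈ S.C := fun r hr hr' => by
    obtain ⟨r', hr'R, hlt⟩ := exists_lt_of_lt_csSup ⟨0, h0R⟩ hr'
    have hr'0 : 0 < r' := hr.trans_lt hlt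
    have := S.convex_C he hr'R (a := 1 - r / r') (b := r / r')
      (by rw [sub_nonneg, div_le_one hr'0]; exact hlt.le) (div_nonneg hr hr'0.le) (by ring)
    convert this using 1
    rw [sub_smul, one_smul, smul_sub, smul_smul, div_mul_cancel₀ _ hr'0.ne']
    abel
  obtain ⟨f, hf⟩ := geometric_hahn_banach_open_point S.convex_C S.isOpen_C hnot
  set x0 := e - r0 • u
  have hf0 : ∀ v ∈ S.C, f v ≤ 0 := fun v hv => by
    by_contra hpos
    push Not at hpos
    obtain ⟨t, ht⟩ := exists_gt (max (f x0 / f v) 0)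
    have := hf _ (S.cone v hv t (lt_of_le_of_lt (le_max_right _ _) ht))
    rw [map_smul, smul_eq_mul] at this
    have h2 := (div_lt_iff₀ hpos).1 ((le_max_left _ _).trans_lt ht)
    linarith
  have hx0 : 0 ≤ f x0 := by
    by_contra hneg
    push Not at hneg
    have hfe : f e < 0 := (hf e he).trans hneg
    have := hf _ (S.cone e he (f x0 / f e / 2) (by
      have := div_pos_of_neg_of_neg hneg hfe
      linarith))
    rw [map_smul, smul_eq_mul] at this
    have h2 : f x0 / f e / 2 * f e = f x0 / 2 := by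
      rw [div_right_comm, div_mul_cancel₀ _ hfe.ne]
    linarith
  have hx0' : f x0 = 0 := by
    refine le_antisymm ?_ hx0
    have hc : Tendsto (fun r : ℝ => f (e - r • u)) (𝓝[<] r0) (𝓝 (f x0)) :=
      ((by fun_prop : Continuous fun r : ℝ => f (e - r • u)).tendsto r0).mono_left nhdsWithin_le_nhds
    refine le_of_tendsto hc ?_
    filter_upwards [Ioo_mem_nhdsLT hr0] with r hr
    exact hf0 _ (hbelow r hr.1.le hr.2)
  have hfe : f e < 0 := by simpa [hx0'] using hf e he
  set l : Rn k →L[ℝ] ℝ := (f e)⁻¹ • f with hl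
  have hlpos : ∀ v ∈ S.C, 0 < l v := fun v hv => by
    have := hf v hv
    rw [hx0'] at this
    simpa [hl] using mul_pos_of_neg_of_neg (inv_lt_zero.2 hfe) this
  have hle : l e = 1 := by simp [hl, hfe.ne]
  have hlu : r0 * l u = 1 := by
    have : l x0 = 0 := by simp [hl, hx0']
    rw [map_sub, map_smul, smul_eq_mul, hle] at this
    linarith
  set b' := ((Real.sqrt r0 : ℝ) : ℂ) • b with hb'
  have hH : S.H b' b' = r0 • u := by
    rw [hb', H_smul_smul, normSq_ofReal, Real.mul_self_sqrt hr0.le]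
  have h1 := five_core hX h hlpos hle (b := b') (by rw [hH, map_smul, smul_eq_mul, hlu])
    fun r hr hr1 => by
      rw [hH, smul_smul]
      exact hbelow _ (mul_nonneg hr hr0.le) (mul_lt_of_lt_one_left hr0 hr1)
  rw [← hb, hb', Complex.coe_smul, herm_smulR, ← Complex.coe_smul, map_smul, herm_self, fl_rC,
    smul_eq_mul, mul_eq_zero, ofReal_eq_zero, ofReal_eq_zero, Real.sqrt_eq_zero hr0.le] at h1
  rcases h1 with h1 | h1
  · exact hr0.ne' h1
  · rw [h1, mul_zero] at hlu
    exact zero_ne_one hlu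

end

end Vale.Agent.P274.Full.Sym
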