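import Vale.Agent.P274.Full.Sym.Weight
import Mathlib.Analysis.Complex.Polynomial.Basic

/-!
Fields of weight at least three are determined by their value at the base point.
-/

open Filter Metric Set Function Topology Complex

namespace Vale.Agent.P274.Full.Sym

noncomputable section

variable {m k : ℕ}

/-- The derivative along the axis. -/
def De (e : Rn k) (X : Mod m k → Mod m k) (p : Mod m k) : Mod m k :=
  fderiv ℂ X p ((0 : Cn m), rC e)

theorem dil_axis (e : Rn k) (t τ : ℂ) : dil t (axis e τ : Mod m k) = axis e (t ^ 2 * τ) := by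
  simp [axis, smul_smul]

/-- Values on the axis. -/
theorem axis_parity {n : ℕ} {X : Mod m k → Mod m k} (h : Wt n X) (e : Rn k) (τ : ℂ) :
    (Even n → (X (axis e τ)).1 = 0) ∧ (Odd n → (X (axis e τ)).2 = 0) := by
  have h1 := h (-1) (axis e τ)
  rw [dil_axis, neg_one_sq, one_mul, one_smul] at h1
  constructor <;> intro hn
  · have h2 := congrArg Prod.fst h1
    simp [hn.neg_one_pow] at h2
    ext i
    have h3 := congrArg (fun v : Cn m => v i) h2
    simpa [self_eq_neg] using h3
  · have h2 := congrArg Prod.snd h1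
    simp [hn.neg_one_pow] at h2
    ext i
    have h3 := congrArg (fun v : Cn k => v i) h2
    simpa [self_eq_neg] using h3

theorem axis_pow {q n : ℕ} (hn : n = 2 * q ∨ n = 2 * q + 1) {X : Mod m k → Mod m k}
    (hX : Differentiable ℂ X) (h : Wt n X) (e : Rn k) (τ : ℂ) :
    X (axis e τ) = τ ^ q • X (axis e 1) := by
  have hc : Continuous fun τ : ℂ => X (axis e τ) := hX.continuous.comp (by unfold axis; fun_prop)
  refine congrFun (Continuous.ext_on (dense_compl_singleton (0 : ℂ)) hc
    (g := fun τ : ℂ => τ ^ q • X (axis e 1)) (by fun_prop) ?_) τ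
  intro σ hσ
  obtain ⟨t, ht⟩ := IsAlgClosed.exists_pow_nat_eq σ (n := 2) two_pos
  subst ht
  have ht0 : t ≠ 0 := fun h0 => hσ (by simp [h0])
  have h1 := h t (axis e 1)
  rw [dil_axis, mul_one] at h1
  obtain ⟨hev, hod⟩ := axis_parity h e 1
  obtain ⟨hev', hod'⟩ := axis_parity h e (t ^ 2)
  apply smul_right_injective _ (pow_ne_zero 2 ht0)
  dsimp only
  rw [h1]
  rcases hn with rfl | rfl
  · refine Prod.ext (by simp [hev (even_two_mul q)]) ?_
    simp [smul_smul]
    ring_nf
  · refine Prod.ext ?_ (by simp [hod (odd_two_mul_add_one q)])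
    simp [smul_smul]
    ring_nf

theorem hasDerivAt_axis (e : Rn k) (τ : ℂ) :
    HasDerivAt (fun σ : ℂ => (axis e σ : Mod m k)) ((0 : Cn m), rC e) τ :=
  (hasDerivAt_const τ (0 : Cn m)).prodMk (by simpa using (hasDerivAt_id τ).smul_const (rC e))

theorem De_axis {q n : ℕ} (hn : n = 2 * q ∨ n = 2 * q + 1) {X : Mod m k → Mod m k}
    (hX : Differentiable ℂ X) (h : Wt n X) (e : Rn k) (τ : ℂ) :
    De e X (axis e τ) = ((q : ℂ) * τ ^ (q - 1)) • X (axis e 1) := by
  have h1 : HasDerivAt (fun σ : ℂ => X (axis e σ)) (De e X (axis e τ)) τ :=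
    (hX _).hasFDerivAt.comp_hasDerivAt τ (hasDerivAt_axis e τ)
  exact h1.unique (((hasDerivAt_pow q τ).smul_const _).congr_of_eventuallyEq
    (Eventually.of_forall fun σ => axis_pow hn hX h e σ))

/-- The differentiated homogeneity. -/
theorem Wt.fderiv_apply {n : ℕ} {X : Mod m k → Mod m k} (hX : Differentiable ℂ X) (h : Wt n X)
    (t : ℂ) (p v : Mod m k) :
    t ^ 2 • fderiv ℂ X (dil t p) (dil t v) = t ^ n • dil t (fderiv ℂ X p v) := by
  have hp : HasDerivAt (fun s : ℂ => p + s • v) v 0 := by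
    simpa using ((hasDerivAt_id (0 : ℂ)).smul_const v).const_add p
  have h1 : HasDerivAt (fun s : ℂ => t ^ 2 • X (dil t (p + s • v)))
      (t ^ 2 • fderiv ℂ X (dil t p) (dil t v)) 0 :=
    ((hX _).hasFDerivAt.comp_hasDerivAt_of_eq 0
      ((dil t).hasFDerivAt.comp_hasDerivAt 0 hp) (by simp)).const_smul (t ^ 2)
  have h2 : HasDerivAt (fun s : ℂ => t ^ n • dil t (X (p + s • v)))
      (t ^ n • dil t (fderiv ℂ X p v)) 0 :=
    ((dil t).hasFDerivAt.comp_hasDerivAt 0
      ((hX p).hasFDerivAt.comp_hasDerivAt_of_eq 0 hp (by simp))).const_smul (t ^ n)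
  exact h1.unique (h2.congr_of_eventuallyEq (Eventually.of_forall fun s => h t _))

theorem ex_smul (A : Op m k) (a b : ℂ) : ex (a • A) b = ex A (b * a) := by
  rw [ex, ex, smul_smul]

variable {S : Siegel m k} (P : LieData S.dom)

include P in
theorem Good.eq_zero {X : Mod m k → Mod m k} (hX : Good S X) {p : Mod m k} (hp : p ∈ S.dom)
    (h0 : X p = 0) (h1 : fderiv ℂ X p = 0) : X = 0 :=
  eq_of_eqOn S hX.1 (differentiable_const 0)
    (eqOn_zero_of_fderiv P (Cayley.isOpen_dom S) hp hX.2 h0 h1)

include P in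
/-- Derivatives commute with differentiation along real translations. -/
theorem Good.fderiv_dir {X : Mod m k → Mod m k} (hX : Good S X) (u : Rn k) (p v : Mod m k) :
    HasDerivAt (fun s : ℝ => fderiv ℂ X (tr (s • u) p) v)
      (fderiv ℂ (fun q => fderiv ℂ X q ((0 : Cn m), rC u)) p v) 0 := by
  have hd : ∀ q, HasDerivAt (fun s : ℝ => X (tr (s • u) q)) (fderiv ℂ X q ((0 : Cn m), rC u)) 0 := by
    intro q
    have h1 : HasDerivAt (fun t : ℝ => tr (t • u) q) ((0 : Cn m), rC u) 0 := by
      have h : HasDerivAt (fun s : ℝ => q.2 + s • rC u) (rC u) 0 := by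
        simpa using ((hasDerivAt_id (0 : ℝ)).smul_const (rC u)).const_add q.2
      simpa [tr] using (hasDerivAt_const (0 : ℝ) q.1).prodMk h
    exact ((hX.1 q).hasFDerivAt.restrictScalars ℝ).comp_hasDerivAt_of_eq 0 h1 (by simp [tr])
  obtain ⟨cf, c', h1, h2⟩ := exists_coef P (fun s => (hX.comp_tr P (s • u)).2) fun q _ => hd q
  have hFe : ∀ s, (fun q => X (tr (s • u) q)) = ext P (cf s) := fun s =>
    eq_of_eqOn S (hX.comp_tr P _).1 (differentiable_ext P _) fun z hz => by
      exact (h1 s hz).trans (ext_eq P _ hz).symm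
  have hK : (fun q => fderiv ℂ X q ((0 : Cn m), rC u)) = ext P c' := funext fun q => (hd q).unique (by
    have e : (fun s : ℝ => X (tr (s • u) q)) = fun s => extL P q (cf s) :=
      funext fun s => congrFun (hFe s) q
    rw [e]
    exact (extL P q).hasFDerivAt.comp_hasDerivAt 0 h2)
  let Lv : (Fin P.d → ℝ) →L[ℝ] Mod m k := LinearMap.toContinuousLinearMap
    { toFun := fun c => fderiv ℂ (ext P c) p v
      map_add' := fun a b => by
        rw [show ext P (a + b) = fun q => ext P a q + ext P b q from funext (ext_add P a b),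
          fderiv_fun_add (differentiable_ext P a p) (differentiable_ext P b p)]
        rfl
      map_smul' := fun t a => by
        rw [show ext P (t • a) = fun q => (t : ℂ) • ext P a q from
          funext fun q => by rw [ext_smul, Complex.coe_smul],
          fderiv_fun_const_smul (differentiable_ext P a p), smul_apply, Complex.coe_smul]
        rfl }
  have e : (fun s : ℝ => fderiv ℂ X (tr (s • u) p) v) = fun s => Lv (cf s) := by
    funext s
    have h : HasFDerivAt (fun q => X (tr (s • u) q)) (fderiv ℂ X (tr (s • u) p)) p := by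
      have h0 : HasFDerivAt (tr (s • u)) (ContinuousLinearMap.id ℂ (Mod m k)) p := by
        rw [← fderiv_tr (s • u) p]
        exact (differentiable_tr _ p).hasFDerivAt
      exact (hX.1 _).hasFDerivAt.comp p h0
    show _ = fderiv ℂ (ext P (cf s)) p v
    rw [← hFe s, h.fderiv]
  rw [e, hK]
  exact Lv.hasFDerivAt.comp_hasDerivAt 0 h2

include P in
/-- A linear part along the axis. -/
theorem De_fderiv {X : Mod m k → Mod m k} (hX : Good S X) (e : Rn k) {A B : Op m k}
    (hA : ∀ σ : ℂ, σ ≠ 0 → fderiv ℂ X (axis e σ) = σ • A + B) :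
    fderiv ℂ (De e X) (base e) = A := by
  refine ContinuousLinearMap.ext fun v => (hX.fderiv_dir P e (base e) v).unique ?_
  have h : HasDerivAt (fun s : ℝ => (I + (s : ℂ)) • A v + B v) (A v) 0 := by
    have h1 : HasDerivAt (fun s : ℝ => I + (s : ℂ)) 1 0 := by
      simpa using ((hasDerivAt_id (0 : ℝ)).ofReal_comp).const_add I
    simpa using (h1.smul_const (A v)).add_const (B v)
  refine h.congr_of_eventuallyEq (Eventually.of_forall fun s => ?_)
  have hs : (I + (s : ℂ)) ≠ 0 := fun h0 => by simpa using congrArg Complex.im h0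
  show fderiv ℂ X (tr (s • e) (base e)) v = _
  rw [show (tr (s • e) (base e) : Mod m k) = axis e (I + s) by
    simp [tr, axis, add_smul, Complex.coe_smul], hA _ hs]
  rfl

variable {e : Rn k}

theorem fderiv_axis_four {X : Mod m k → Mod m k} (hX : Differentiable ℂ X) (h : Wt 4 X)
    {σ : ℂ} (hσ : σ ≠ 0) : fderiv ℂ X (axis e σ) = σ • fderiv ℂ X (axis e 1) := by
  obtain ⟨t, ht⟩ := IsAlgClosed.exists_pow_nat_eq σ (n := 2) two_pos
  subst ht
  have ht0 : t ≠ 0 := fun h0 => hσ (by simp [h0])
  set A := fderiv ℂ X (axis e 1)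
  set B := fderiv ℂ X (axis e (t ^ 2))
  have key : ∀ s : ℂ, s ≠ 0 → s ^ 2 = t ^ 2 → ∀ v, B (dil s v) = s ^ 2 • dil s (A v) := by
    intro s hs hst v
    have h1 := h.fderiv_apply hX s (axis e 1) v
    rw [dil_axis, mul_one, hst] at h1
    apply smul_right_injective _ (pow_ne_zero 2 ht0)
    dsimp only
    rw [h1, smul_smul, hst]
    congr 1
    rw [show s ^ 4 = (s ^ 2) ^ 2 by ring, hst]
    ring
  have kp := key t ht0 rfl
  have kn := key (-t) (neg_ne_zero.2 ht0) (neg_sq t)
  have e1 : ∀ η : Cn m, B (η, 0) = t ^ 2 • A (η, 0) := fun η => by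
    have a := kp (η, 0)
    have b := kn (η, 0)
    rw [show dil t ((η, 0) : Mod m k) = t • (η, 0) by simp, map_smul] at a
    rw [show dil (-t) ((η, 0) : Mod m k) = (-t) • (η, 0) by simp, map_smul] at b
    refine Prod.ext ?_ ?_
    · have a1 := congrArg Prod.fst a
      simp only [Prod.smul_fst, sc_apply] at a1
      rw [smul_comm (t ^ 2) t] at a1
      simpa using (smul_right_injective _ ht0) a1
    · have a2 := congrArg Prod.snd a
      have b2 := congrArg Prod.snd b
      simp only [Prod.smul_snd, sc_apply, neg_sq, neg_smul] at a2 b2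
      rw [← a2] at b2
      have : t • (B (η, 0)).2 = 0 := by
        ext i
        have := congrArg (fun v : Cn k => v i) b2
        simpa [neg_eq_iff_add_eq_zero] using this
      rw [this] at a2
      have h0 : (A (η, 0)).2 = 0 := by
        rw [smul_smul, eq_comm, smul_eq_zero] at a2
        exact a2.resolve_left (by simp [ht0])
      simp [h0, (smul_eq_zero.1 this).resolve_left ht0]
  have e2 : ∀ ξ : Cn k, B (0, ξ) = t ^ 2 • A (0, ξ) := fun ξ => by
    have a := kp (0, ξ)
    have b := kn (0, ξ)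
    rw [show dil t ((0, ξ) : Mod m k) = t ^ 2 • (0, ξ) by simp, map_smul] at a
    rw [show dil (-t) ((0, ξ) : Mod m k) = t ^ 2 • (0, ξ) by simp, map_smul, neg_sq] at b
    have hB : B (0, ξ) = dil t (A (0, ξ)) := smul_right_injective _ (pow_ne_zero 2 ht0) a
    have hB' : B (0, ξ) = dil (-t) (A (0, ξ)) := smul_right_injective _ (pow_ne_zero 2 ht0) b
    refine Prod.ext ?_ (by simpa using congrArg Prod.snd hB)
    have a1 := congrArg Prod.fst hB
    have b1 := congrArg Prod.fst hB'
    simp only [sc_apply, neg_smul] at a1 b1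
    rw [a1] at b1
    have : t • (A (0, ξ)).1 = 0 := by
      ext i
      have := congrArg (fun v : Cn m => v i) b1
      simpa [self_eq_neg] using this
    rw [a1, this, Prod.smul_fst, (smul_eq_zero.1 this).resolve_left ht0, smul_zero]
  refine ContinuousLinearMap.ext fun v => ?_
  have hv : v = (v.1, 0) + (0, v.2) := by simp
  rw [hv, map_add, map_add, e1, e2, smul_apply, smul_apply]

/-- The part of a linear map from the free to the tube coordinates. -/
def low (A : Op m k) : Op m k :=
  (ContinuousLinearMap.inr ℂ (Cn m) (Cn k)).comp ((ContinuousLinearMap.snd ℂ (Cn m) (Cn k)).comp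
    (A.comp ((ContinuousLinearMap.inl ℂ (Cn m) (Cn k)).comp (ContinuousLinearMap.fst ℂ (Cn m) (Cn k)))))

/-- The part of a linear map from the tube to the free coordinates. -/
def up (A : Op m k) : Op m k :=
  (ContinuousLinearMap.inl ℂ (Cn m) (Cn k)).comp ((ContinuousLinearMap.fst ℂ (Cn m) (Cn k)).comp
    (A.comp ((ContinuousLinearMap.inr ℂ (Cn m) (Cn k)).comp (ContinuousLinearMap.snd ℂ (Cn m) (Cn k)))))

theorem low_sq (A : Op m k) : low A * low A = 0 := by
  refine ContinuousLinearMap.ext fun v => ?_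
  simp [low, Prod.ext_iff]
  exact congrArg Prod.snd (map_zero A)

theorem up_sq (A : Op m k) : up A * up A = 0 := by
  refine ContinuousLinearMap.ext fun v => ?_
  simp [up, Prod.ext_iff]
  exact congrArg Prod.fst (map_zero A)

theorem fderiv_axis_three {X : Mod m k → Mod m k} (hX : Differentiable ℂ X) (h : Wt 3 X)
    {σ : ℂ} (hσ : σ ≠ 0) : fderiv ℂ X (axis e σ) =
      σ • low (fderiv ℂ X (axis e 1)) + up (fderiv ℂ X (axis e 1)) := by
  obtain ⟨t, ht⟩ := IsAlgClosed.exists_pow_nat_eq σ (n := 2) two_pos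
  subst ht
  have ht0 : t ≠ 0 := fun h0 => hσ (by simp [h0])
  set A := fderiv ℂ X (axis e 1)
  set B := fderiv ℂ X (axis e (t ^ 2))
  have key : ∀ s : ℂ, s ≠ 0 → s ^ 2 = t ^ 2 → ∀ v, B (dil s v) = s • dil s (A v) := by
    intro s hs hst v
    have h1 := h.fderiv_apply hX s (axis e 1) v
    rw [dil_axis, mul_one, hst] at h1
    apply smul_right_injective _ (pow_ne_zero 2 ht0)
    dsimp only
    rw [h1, smul_smul, ← hst]
    congr 1
  have kp := key t ht0 rfl
  have kn := key (-t) (neg_ne_zero.2 ht0) (neg_sq t)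
  have e1 : ∀ η : Cn m, B (η, 0) = ((0 : Cn m), t ^ 2 • (A (η, 0)).2) := fun η => by
    have a := kp (η, 0)
    have b := kn (η, 0)
    rw [show dil t ((η, 0) : Mod m k) = t • (η, 0) by simp, map_smul] at a
    rw [show dil (-t) ((η, 0) : Mod m k) = (-t) • (η, 0) by simp, map_smul] at b
    have hB : B (η, 0) = dil t (A (η, 0)) := smul_right_injective _ ht0 a
    have hB' : B (η, 0) = dil (-t) (A (η, 0)) := smul_right_injective _ (neg_ne_zero.2 ht0) b
    refine Prod.ext ?_ (by simpa using congrArg Prod.snd hB)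
    have a1 := congrArg Prod.fst hB
    have b1 := congrArg Prod.fst hB'
    simp only [sc_apply, neg_smul] at a1 b1
    rw [a1] at b1
    rw [a1]
    show t • (A (η, 0)).1 = 0
    ext i
    have := congrArg (fun v : Cn m => v i) b1
    simpa [self_eq_neg] using this
  have e2 : ∀ ξ : Cn k, B (0, ξ) = ((A (0, ξ)).1, (0 : Cn k)) := fun ξ => by
    have a := kp (0, ξ)
    have b := kn (0, ξ)
    rw [show dil t ((0, ξ) : Mod m k) = t • (t • (0, ξ)) by simp [smul_smul, sq], map_smul] at a
    rw [show dil (-t) ((0, ξ) : Mod m k) = (-t) • ((-t) • (0, ξ)) by simp [smul_smul, sq],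
      map_smul] at b
    have hB : B (t • (0, ξ)) = dil t (A (0, ξ)) := smul_right_injective _ ht0 a
    have hB' : B ((-t) • (0, ξ)) = dil (-t) (A (0, ξ)) :=
      smul_right_injective _ (neg_ne_zero.2 ht0) b
    rw [map_smul] at hB
    rw [map_smul, neg_smul, hB] at hB'
    apply smul_right_injective _ ht0
    dsimp only
    rw [hB]
    have b2 := congrArg Prod.snd hB'
    simp only [Prod.snd_neg, sc_apply, neg_sq] at b2
    refine Prod.ext (by simp) ?_
    show t ^ 2 • (A (0, ξ)).2 = t • (0 : Cn k)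
    rw [smul_zero]
    ext i
    have := congrArg (fun v : Cn k => v i) b2
    simpa [neg_eq_iff_add_eq_zero] using this
  refine ContinuousLinearMap.ext fun v => ?_
  have hv : B v = B (v.1, 0) + B (0, v.2) := by rw [← map_add]; simp
  rw [hv, e1, e2]
  simp [low, up]

include P in
/-- A field of weight three or four vanishing at the base point is zero. -/
theorem inject {n : ℕ} (hn : n = 3 ∨ n = 4) (he : e ∈ S.C) {X : Mod m k → Mod m k} (hX : Good S X)
    (h : Wt n X) (h0 : X (base e) = 0) : X = 0 := by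
  have hp := base_mem S he
  have hK : Good S (De e X) := hX.dir P e
  obtain ⟨q, hq, hq'⟩ : ∃ q, (n = 2 * q ∨ n = 2 * q + 1) ∧ 0 < q := by
    rcases hn with rfl | rfl
    · exact ⟨1, Or.inr rfl, one_pos⟩
    · exact ⟨2, Or.inl rfl, two_pos⟩
  have h1 : X (axis e 1) = 0 := by
    have := axis_pow hq hX.1 h e I
    rw [h0, eq_comm, smul_eq_zero] at this
    exact this.resolve_left (pow_ne_zero _ I_ne_zero)
  have hK0 : De e X (base e) = 0 := by rw [De_axis hq hX.1 h, h1, smul_zero]
  obtain ⟨M, hM⟩ := exists_bound_ex P (Cayley.isOpen_dom S) hp hX.2 h0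
  obtain ⟨N, hN⟩ := exists_bound_ex P (Cayley.isOpen_dom S) hp hK.2 hK0
  refine hX.eq_zero P hp h0 ?_
  rcases hn with rfl | rfl
  · have hd := fun σ hσ => fderiv_axis_three (e := e) hX.1 h (σ := σ) hσ
    rw [De_fderiv P hX e hd] at hN
    have hlow := op_eq_zero_of_sq (low_sq _) hN
    have e0 : I • (0 : Op m k) = 0 := smul_zero (A := Op m k) I
    rw [hd I I_ne_zero, hlow, e0, zero_add] at hM ⊢
    exact op_eq_zero_of_sq (up_sq _) hM
  · have hd : ∀ σ : ℂ, σ ≠ 0 → fderiv ℂ X (axis e σ) = σ • fderiv ℂ X (axis e 1) + 0 :=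
      fun σ hσ => by rw [fderiv_axis_four hX.1 h hσ, add_zero]
    rw [De_fderiv P hX e hd] at hN
    rw [fderiv_axis_four hX.1 h I_ne_zero] at hM ⊢
    have : fderiv ℂ X (axis e 1) = 0 := op_eq_zero hN fun t => by
      have := hM t
      rwa [ex_smul, mul_comm] at this
    rw [this]
    exact smul_zero (A := Op m k) I

include P in
/-- A field of weight at least five, invariant along the axis and vanishing at the base point, is
zero. -/
theorem high_eq_zero {n : ℕ} (hn : 5 ≤ n) (he : e ∈ S.C) {X : Mod m k → Mod m k} (hX : Good S X)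
    (h : Wt n X) (h0 : X (base e) = 0) (hK : De e X = 0) : X = 0 := by
  refine hX.eq_zero P (base_mem S he) h0 ?_
  have hinv : ∀ (p : Mod m k) (τ : ℂ), X (p + τ • ((0 : Cn m), rC e)) = X p := fun p τ => by
    have hd : ∀ s : ℂ, HasDerivAt (fun s : ℂ => X (p + s • ((0 : Cn m), rC e))) 0 s := fun s => by
      have h1 : HasDerivAt (fun s : ℂ => p + s • (((0 : Cn m), rC e) : Mod m k))
          ((0 : Cn m), rC e) s := by
        simpa using ((hasDerivAt_id s).smul_const (((0 : Cn m), rC e) : Mod m k)).const_add p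
      exact ((hX.1 _).hasFDerivAt.comp_hasDerivAt s h1).congr_deriv (congrFun hK _)
    simpa using is_const_of_deriv_eq_zero (fun s => (hd s).differentiableAt)
      (fun s => (hd s).deriv) τ 0
  set A := fderiv ℂ X (axis e 1)
  have hconst : ∀ σ : ℂ, fderiv ℂ X (axis e σ) = A := fun σ => by
    have e1 : X = fun p => X (p + (σ - 1) • ((0 : Cn m), rC e)) := funext fun p => (hinv p _).symm
    have h1 : fderiv ℂ X (axis e 1) = fderiv ℂ X (axis e 1 + (σ - 1) • ((0 : Cn m), rC e)) := by
      conv_lhs => rw [e1]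
      exact fderiv_comp_add_right _
    rw [show A = _ from h1]
    congr 1
    simp [axis, sub_smul]
  rw [hconst]
  refine ContinuousLinearMap.ext fun v => ?_
  have key : ∀ v, (4 : ℂ) • A (dil 2 v) = (2 : ℂ) ^ n • dil 2 (A v) := fun v => by
    have := h.fderiv_apply hX.1 2 (axis e 1) v
    rw [dil_axis, hconst] at this
    rw [← this]
    norm_num
  obtain ⟨j, rfl⟩ : ∃ j, n = j + 5 := ⟨n - 5, by omega⟩
  have hne : ∀ a b : ℕ, a < b → (2 : ℂ) ^ a - (2 : ℂ) ^ b ≠ 0 := fun a b hab => sub_ne_zero.2 fun h =>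
    hab.ne (Nat.pow_right_injective (le_refl 2) (Nat.cast_injective (R := ℂ) (by push_cast; exact h)))
  have e1 : ∀ η : Cn m, A (η, 0) = 0 := fun η => by
    have a := key (η, 0)
    rw [show dil 2 ((η, 0) : Mod m k) = (2 : ℂ) • (η, 0) by simp, map_smul, smul_smul] at a
    refine Prod.ext ?_ ?_
    · have a1 := congrArg Prod.fst a
      simp only [Prod.smul_fst, sc_apply, smul_smul] at a1
      rw [← sub_eq_zero, ← sub_smul] at a1
      refine (smul_eq_zero.1 a1).resolve_left ?_
      convert hne 3 (j + 6) (by omega) using 1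
      ring_nf
    · have a2 := congrArg Prod.snd a
      simp only [Prod.smul_snd, sc_apply, smul_smul] at a2
      rw [← sub_eq_zero, ← sub_smul] at a2
      refine (smul_eq_zero.1 a2).resolve_left ?_
      convert hne 3 (j + 7) (by omega) using 1
      ring_nf
  have e2 : ∀ ξ : Cn k, A (0, ξ) = 0 := fun ξ => by
    have a := key (0, ξ)
    rw [show dil 2 ((0, ξ) : Mod m k) = (4 : ℂ) • (0, ξ) by norm_num, map_smul, smul_smul] at a
    refine Prod.ext ?_ ?_
    · have a1 := congrArg Prod.fst a
      simp only [Prod.smul_fst, sc_apply, smul_smul] at a1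
      rw [← sub_eq_zero, ← sub_smul] at a1
      refine (smul_eq_zero.1 a1).resolve_left ?_
      convert hne 4 (j + 6) (by omega) using 1
      ring_nf
    · have a2 := congrArg Prod.snd a
      simp only [Prod.smul_snd, sc_apply, smul_smul] at a2
      rw [← sub_eq_zero, ← sub_smul] at a2
      refine (smul_eq_zero.1 a2).resolve_left ?_
      convert hne 4 (j + 7) (by omega) using 1
      ring_nf
  have hv : A v = A (v.1, 0) + A (0, v.2) := by rw [← map_add]; simp
  simp [hv, e1, e2]

end

end Vale.Agent.P274.Full.Sym
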