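import Vale.Agent.P274.Full.Sym.High
import Mathlib.LinearAlgebra.Complex.FiniteDimensional
import Mathlib.Analysis.Calculus.FDeriv.Equiv

/-!
A Siegel domain with a unimodular algebra of complete fields is symmetric.
-/

open Filter Metric Set Function Topology Complex

namespace Vale.Agent.P274.Full.Sym

noncomputable section

variable {m k : ℕ} {S : Siegel m k} (P : LieData S.dom)

theorem herm_add (a b z : Cn m) : herm S (a + b) z = herm S a z + herm S b z := by
  ext i; apply Complex.ext <;> simp [herm_apply]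

include P in
/-- There are no fields of weight at least five. -/
theorem high_all {e : Rn k} (he : e ∈ S.C) (n : ℕ) :
    5 ≤ n → ∀ X, Good S X → Wt n X → X = 0 := by
  induction n using Nat.strong_induction_on with
  | _ n ih =>
    intro hn X hX h
    obtain ⟨q, hq⟩ : ∃ q, n = 2 * q ∨ n = 2 * q + 1 := ⟨n / 2, by omega⟩
    obtain ⟨j, rfl⟩ : ∃ j, n = j + 2 := ⟨n - 2, by omega⟩
    have hK : Good S (De e X) := hX.dir P e
    have hKw : Wt j (De e X) := h.dir hX.1 _
    have hbase : ∀ a : X (axis e 1) = 0, X (base e) = 0 ∧ De e X (base e) = 0 := fun a =>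
      ⟨by rw [axis_pow hq hX.1 h, a, smul_zero], by rw [De_axis hq hX.1 h, a, smul_zero]⟩
    have hq2 : q ≠ 0 := by omega
    rcases lt_or_ge j 5 with hj | hj
    · have h0 : X (base e) = 0 := by
        rcases (by omega : j = 3 ∨ j = 4) with rfl | rfl
        · exact five he hX h
        · exact six P he hX h
      have h1 : X (axis e 1) = 0 := by
        have := axis_pow hq hX.1 h e I
        rw [h0, eq_comm, smul_eq_zero] at this
        exact this.resolve_left (pow_ne_zero _ I_ne_zero)
      exact high_eq_zero P hn he hX h h0 (inject P (by omega) he hK hKw (hbase h1).2)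
    · have hK0 : De e X = 0 := ih j (by omega) hj _ hK hKw
      have h1 : X (axis e 1) = 0 := by
        have := De_axis hq hX.1 h e 1
        rw [hK0, Pi.zero_apply, one_pow, mul_one, eq_comm, smul_eq_zero] at this
        exact this.resolve_left (Nat.cast_ne_zero.2 hq2)
      exact high_eq_zero P hn he hX h (hbase h1).1 hK0

/-- A linear family of fields of weight `n` bounds the dimension from below. -/
theorem le_finrank {V : Type*} [AddCommGroup V] [Module ℝ V] [FiniteDimensional ℝ V] {n : ℕ}
    (F : V → Mod m k → Mod m k) (hG : ∀ v, Good S (F v)) (hw : ∀ v, Wt n (F v))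
    (hadd : ∀ v w p, F (v + w) p = F v p + F w p) (hsmul : ∀ (t : ℝ) v p, F (t • v) p = t • F v p)
    (hinj : Injective F) : Module.finrank ℝ V ≤ Module.finrank ℝ (W P n) := by
  choose c hc using fun v => (hG v).exists_eq P
  let f : V →ₗ[ℝ] W P n :=
    { toFun := fun v => ⟨c v, show Wt n (ext P (c v)) from hc v ▸ hw v⟩
      map_add' := fun v w => Subtype.ext <| ext_injective P <| funext fun p => by
        simp only [Submodule.coe_add, ext_add, ← hc]
        exact hadd v w p
      map_smul' := fun t v => Subtype.ext <| ext_injective P <| funext fun p => by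
        simp only [RingHom.id_apply, Submodule.coe_smul, ext_smul, ← hc]
        exact hsmul t v p }
  refine LinearMap.finrank_le_finrank_of_injective (f := f) fun v w hvw => hinj ?_
  rw [hc v, hc w]
  exact congrArg (ext P) (congrArg Subtype.val hvw)

theorem le_W_zero : k ≤ Module.finrank ℝ (W P 0) := by
  have h := le_finrank P (n := 0) (fun (u : Rn k) (_ : Mod m k) => ((0 : Cn m), rC u))
    (fun u => ⟨differentiable_const _, complete_tr S u⟩) (fun u t p => by simp)
    (fun v w p => by simp) (fun t v p => by simp)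
    fun u v huv => rC_injective (congrArg Prod.snd (congrFun huv 0))
  simpa using h

theorem le_W_one : 2 * m ≤ Module.finrank ℝ (W P 1) := by
  have h := le_finrank P (n := 1) (fun (b : Cn m) (p : Mod m k) => (b, (2 * I) • herm S b p.1))
    (fun b => ⟨by fun_prop, complete_heis S b⟩) (fun b t p => by
      refine Prod.ext ?_ ?_
      · simp [smul_smul, sq]
      · simp [smul_smul]
        ring_nf)
    (fun v w p => by simp [herm_add]) (fun t v p => by simp [herm_smulR, smul_comm (2 * I) t])
    fun u v huv => congrArg Prod.fst (congrFun huv 0)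
  rwa [finrank_real_of_complex, finrank_euclideanSpace_fin] at h

theorem W_three_le {e : Rn k} (he : e ∈ S.C) : Module.finrank ℝ (W P 3) ≤ 2 * m := by
  let f : W P 3 →ₗ[ℝ] Cn m :=
    { toFun := fun c => (ext P c.1 (axis e 1)).1
      map_add' := fun a b => by simp [ext_add]
      map_smul' := fun t a => by simp [ext_smul] }
  have hinj : Injective f := by
    rw [← LinearMap.ker_eq_bot, LinearMap.ker_eq_bot']
    intro c hc
    have h0 : ext P c.1 (base e) = 0 := by
      rw [axis_pow (q := 1) (Or.inr rfl) (differentiable_ext P _) c.2,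
        show ext P c.1 (axis e 1) = 0 from Prod.ext hc ((axis_parity c.2 e 1).2 (by decide)),
        smul_zero]
    have h := inject P (Or.inl rfl) he (good_ext P c.1) c.2 h0
    refine Subtype.ext (ext_injective P (h.trans ?_))
    funext p
    simpa using (ext_smul P 0 0 p).symm
  have := LinearMap.finrank_le_finrank_of_injective hinj
  rwa [finrank_real_of_complex, finrank_euclideanSpace_fin] at this

include P in
/-- The grading reaches weight four in every direction. -/
theorem exists_four {e : Rn k} (he : e ∈ S.C) :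
    ∃ X, Good S X ∧ Wt 4 X ∧ X (axis e 1) = ((0 : Cn m), rC e) := by
  classical
  have hz : ∀ c : Fin P.d → ℝ, ext P c = 0 → c = 0 := fun c h =>
    ext_injective P (h.trans (funext fun p => by simpa using (ext_smul P 0 0 p).symm))
  let f : W P 4 →ₗ[ℝ] Rn k :=
    { toFun := fun c => rv (ext P c.1 (axis e 1)).2
      map_add' := fun a b => by simp [ext_add]
      map_smul' := fun t a => by ext i; simp [ext_smul] }
  have hinj : Injective f := by
    rw [← LinearMap.ker_eq_bot, LinearMap.ker_eq_bot']
    intro c hc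
    obtain ⟨u, hu⟩ := real_snd P he 2 _ (good_ext P c.1) c.2
    have hu0 : u = 0 := by
      have h : rv (ext P c.1 (axis e 1)).2 = 0 := hc
      rwa [hu, rv_rC] at h
    have h0 : ext P c.1 (base e) = 0 := by
      rw [axis_pow (q := 2) (Or.inl rfl) (differentiable_ext P _) c.2, hu, hu0, map_zero]
      exact smul_zero _
    exact Subtype.ext (hz _ (inject P (Or.inr rfl) he (good_ext P c.1) c.2 h0))
  have h4 := LinearMap.finrank_le_finrank_of_injective hinj
  have hhigh : ∀ n, 5 ≤ n → W P n = ⊥ := fun n hn => (Submodule.eq_bot_iff _).2 fun c hc =>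
    hz c (high_all P he n hn _ (good_ext P c) hc)
  have hbal := weight_balance P
  rw [Finset.sum_coe_sort (wts P) (fun n => n * Module.finrank ℝ (W P n)),
    Finset.sum_coe_sort (wts P) (fun n => 2 * Module.finrank ℝ (W P n))] at hbal
  have hext : ∀ g : ℕ → ℕ, (∀ n, W P n = ⊥ → g n = 0) →
      ∑ n ∈ wts P, g n = ∑ n ∈ Finset.range 5, g n := fun g hg => by
    have h1 : wts P ⊆ wts P ∪ Finset.range 5 := Finset.subset_union_left
    have h2 : Finset.range 5 ⊆ wts P ∪ Finset.range 5 := Finset.subset_union_right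
    exact (Finset.sum_subset h1 fun n _ hn => hg n (W_eq_bot P hn)).trans
      (Finset.sum_subset h2 fun n _ hn => hg n (hhigh n (by simpa using hn))).symm
  rw [hext _ (fun n hn => by rw [hn, finrank_bot, mul_zero]),
    hext _ (fun n hn => by rw [hn, finrank_bot, mul_zero])] at hbal
  simp [Finset.sum_range_succ] at hbal
  have hk : Module.finrank ℝ (Rn k) = k := finrank_euclideanSpace_fin
  have heq : Module.finrank ℝ (W P 4) = Module.finrank ℝ (Rn k) := by
    have := le_W_zero P
    have := le_W_one P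
    have := W_three_le P he
    omega
  obtain ⟨c, hc⟩ := (LinearMap.injective_iff_surjective_of_finrank_eq_finrank heq).1 hinj e
  refine ⟨ext P c.1, good_ext P c.1, c.2, ?_⟩
  obtain ⟨u, hu⟩ := real_snd P he 2 _ (good_ext P c.1) c.2
  have h : rv (ext P c.1 (axis e 1)).2 = e := hc
  rw [hu, rv_rC] at h
  rwa [h] at hu

theorem hasDerivAt_ex' (A : Op m k) (c : ℂ) (t : ℝ) :
    HasDerivAt (fun s : ℝ => ex A (c * s)) (c • A * ex A (c * t)) t := by
  simpa using hasDerivAt_ex_mul A 1 c t

theorem sc_mul (a b a' b' : ℂ) :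
    (sc a b : Op m k) * sc a' b' = sc (a * a') (b * b') := by
  ext v <;> simp [smul_smul]

theorem ex_sc (a b : ℂ) (t : ℝ) :
    ex (sc a b : Op m k) t = sc (Complex.exp (a * t)) (Complex.exp (b * t)) := by
  have hsc : ∀ x y : ℂ, (sc x y : Op m k) = x • sc 1 0 + y • sc 0 1 := fun x y => by
    ext v <;> simp
  have hd : ∀ s : ℝ, HasDerivAt (fun s : ℝ => (sc (Complex.exp (a * s)) (Complex.exp (b * s)) : Op m k))
      (sc a b * sc (Complex.exp (a * s)) (Complex.exp (b * s))) s := fun s => by
    have he : ∀ c : ℂ, HasDerivAt (fun s : ℝ => Complex.exp (c * s)) (c * Complex.exp (c * s)) s :=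
      fun c => by
        refine comp_real (f := fun z => Complex.exp (c * z)) ?_
        simpa [mul_comm] using ((hasDerivAt_id (s : ℂ)).const_mul c).cexp
    have h : HasDerivAt
        (fun s : ℝ => Complex.exp (a * s) • (sc 1 0 : Op m k) + Complex.exp (b * s) • sc 0 1)
        ((a * Complex.exp (a * s)) • (sc 1 0 : Op m k) + (b * Complex.exp (b * s)) • sc 0 1) s :=
      ((he a).smul_const (sc 1 0 : Op m k)).fun_add ((he b).smul_const (sc 0 1 : Op m k))
    rw [sc_mul, hsc (a * _)]
    simpa only [← hsc] using h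
  have h := eq_ex_mul hd t
  simp only [ofReal_zero, mul_zero, Complex.exp_zero] at h
  rw [h, show (sc 1 1 : Op m k) = 1 by ext v <;> simp, mul_one]

theorem norm_sc_le {a b : ℂ} (ha : ‖a‖ = 1) (hb : ‖b‖ = 1) :
    ‖(sc a b : Op m k)‖ ≤ ‖(sc 1 0 : Op m k)‖ + ‖(sc 0 1 : Op m k)‖ := by
  rw [show (sc a b : Op m k) = a • sc 1 0 + b • sc 0 1 by ext v <;> simp]
  refine (norm_add_le _ _).trans ?_
  rw [norm_smul, norm_smul, ha, hb, one_mul, one_mul]

include P in
/-- The linear part of the reflecting field. -/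
theorem fderiv_four {e : Rn k} (he : e ∈ S.C) {X : Mod m k → Mod m k} (hX : Good S X) (h : Wt 4 X)
    (hval : X (axis e 1) = ((0 : Cn m), rC e)) : fderiv ℂ X (axis e 1) = sc 1 2 := by
  have hp := base_mem S he
  set A := fderiv ℂ X (axis e 1) with hA
  have hd : ∀ σ : ℂ, σ ≠ 0 → fderiv ℂ X (axis e σ) = σ • A + 0 :=
    fun σ hσ => by rw [hA, fderiv_axis_four hX.1 h hσ, add_zero]
  have hK : Good S (De e X) := hX.dir P e
  have hZ : Good S fun p => ((0 : Cn m), rC e) + X p :=
    Good.add P ⟨differentiable_const _, complete_tr S e⟩ hX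
  have hE : Good S fun p : Mod m k => sc 1 2 p :=
    ⟨(sc 1 2).differentiable, complete_congr (complete_euler S) fun z _ =>
      Prod.ext (by simp) (by simp [← Complex.coe_smul])⟩
  have hK' : Good S fun p => De e X p + (-1 : ℝ) • sc 1 2 p := hK.add P (hE.smul P (-1))
  have hZ0 : ((0 : Cn m), rC e) + X (base e) = 0 := by
    rw [axis_pow (q := 2) (Or.inl rfl) hX.1 h, hval, I_sq]
    simp
  have hK0 : De e X (base e) + (-1 : ℝ) • sc 1 2 (base e) = 0 := by
    rw [De_axis (q := 2) (Or.inl rfl) hX.1 h, hval]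
    simp [axis, smul_smul]
  obtain ⟨M, hM⟩ := exists_bound_ex P (Cayley.isOpen_dom S) hp hZ.2 hZ0
  obtain ⟨N, hN⟩ := exists_bound_ex P (Cayley.isOpen_dom S) hp hK'.2 hK0
  have hdZ : fderiv ℂ (fun p => ((0 : Cn m), rC e) + X p) (base e) = I • A := by
    rw [fderiv_const_add, hA, fderiv_axis_four hX.1 h I_ne_zero]
  have hdK : fderiv ℂ (fun p => De e X p + (-1 : ℝ) • sc 1 2 p) (base e) = A - sc 1 2 := by
    have h1 : HasFDerivAt (fun p => De e X p + (-1 : ℂ) • sc 1 2 p)
        (fderiv ℂ (De e X) (base e) + (-1 : ℂ) • sc 1 2) (base e) :=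
      (hK.1 _).hasFDerivAt.fun_add (((sc 1 2).hasFDerivAt).const_smul (-1 : ℂ))
    rw [show (fun p => De e X p + (-1 : ℝ) • sc 1 2 p) = fun p => De e X p + (-1 : ℂ) • sc 1 2 p from
      funext fun p => by simp, h1.fderiv, De_fderiv P hX e hd]
    ext v <;> simp [sub_eq_add_neg]
  rw [hdZ] at hM
  rw [hdK] at hN
  have hpar : ∀ v, A (dil (-1) v) = dil (-1) (A v) := fun v => by
    have := h.fderiv_apply hX.1 (-1) (axis e 1) v
    rw [dil_axis, mul_one, neg_one_sq, one_smul, Even.neg_one_pow (show Even 4 by decide),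
      one_smul] at this
    simpa [hA] using this
  have hsplit : ∀ v : Mod m k, sc 1 2 v = (3 / 2 : ℂ) • v + (1 / 2 : ℂ) • dil (-1) v := fun v => by
    refine Prod.ext ?_ ?_ <;> simp <;> module
  have hcomm : Commute A (sc 1 2) := ContinuousLinearMap.ext fun v => by
    show A (sc 1 2 v) = sc 1 2 (A v)
    rw [hsplit, hsplit, map_add, map_smul, map_smul, hpar]
  set N' := ‖(sc 1 0 : Op m k)‖ + ‖(sc 0 1 : Op m k)‖
  have hb : ∀ t : ℝ, ‖ex (A - sc 1 2) (I * t)‖ ≤ M * N' := by
    intro t
    have hD : ∀ s : ℝ, HasDerivAt (fun s : ℝ => ex A (I * s) * ex (sc 1 2 : Op m k) ((-I) * s))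
        (I • (A - sc 1 2) * (ex A (I * s) * ex (sc 1 2 : Op m k) ((-I) * s))) s := fun s => by
      refine ((hasDerivAt_ex' A I s).fun_mul (hasDerivAt_ex' (sc 1 2) (-I) s)).congr_deriv ?_
      have hc : Commute (sc 1 2 : Op m k) (ex A (I * s)) := commute_ex hcomm _
      simp only [smul_mul_op, mul_smul_op, ← mul_assoc, sub_mul, ← hc.eq]
      module
    have h1 := eq_ex_mul hD t
    simp only [ofReal_zero, mul_zero, ex_zero, mul_one] at h1
    rw [ex_smul, mul_comm (t : ℂ)] at h1
    rw [← h1]
    refine (norm_mul_le _ _).trans (mul_le_mul ?_ ?_ (norm_nonneg _) ((norm_nonneg _).trans (hM 0)))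
    · have := hM t
      rwa [ex_smul, mul_comm (t : ℂ)] at this
    · rw [show (-I) * (t : ℂ) = ((-t : ℝ) : ℂ) * I by push_cast; ring, ← ex_smul,
        show (I • sc 1 2 : Op m k) = sc I (2 * I) by ext v <;> simp [smul_smul, mul_comm I],
        ex_sc]
      refine norm_sc_le ?_ ?_
      · rw [mul_comm, Complex.norm_exp_ofReal_mul_I]
      · rw [show 2 * I * ((-t : ℝ) : ℂ) = ((2 * -t : ℝ) : ℂ) * I by push_cast; ring,
          Complex.norm_exp_ofReal_mul_I]
  exact sub_eq_zero.1 (op_eq_zero hN hb)

include P in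
/-- The symmetry at a base point. -/
theorem sym_base {e : Rn k} (he : e ∈ S.C) :
    ∃ s : Mod m k → Mod m k, DifferentiableOn ℂ s S.dom ∧ MapsTo s S.dom S.dom ∧
      (∀ z ∈ S.dom, s (s z) = z) ∧ s (base e) = base e ∧
      ∀ᶠ z in 𝓝 (base e : Mod m k), s z = z → z = base e := by
  have hp := base_mem S he
  have hV := Cayley.isOpen_dom S
  obtain ⟨X, hX, h4, hval⟩ := exists_four P he
  have hA := fderiv_four P he hX h4 hval
  have hZ : Good S fun p => ((0 : Cn m), rC e) + X p :=
    Good.add P ⟨differentiable_const _, complete_tr S e⟩ hX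
  have hZ0 : ((0 : Cn m), rC e) + X (base e) = 0 := by
    rw [axis_pow (q := 2) (Or.inl rfl) hX.1 h4, hval, I_sq]
    simp
  obtain ⟨φ, hφ⟩ := hZ.2.2
  have hfix := flow_fixed hV hφ hp hZ0
  set u : ℝ := Real.pi / 2
  have hd : fderiv ℂ (φ u) (base e) = sc I (-1) := by
    rw [flow_fderiv_eq hV hZ.2.1 hφ hp hZ0, fderiv_const_add, fderiv_axis_four hX.1 h4 I_ne_zero,
      hA, show (I • sc 1 2 : Op m k) = sc I (2 * I) by ext v <;> simp [smul_smul, mul_comm I],
      ex_sc]
    congr 1
    · simp only [u]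
      push_cast
      rw [mul_comm, Complex.exp_pi_div_two_mul_I]
    · simp only [u]
      push_cast
      rw [show 2 * I * ((Real.pi : ℂ) / 2) = Real.pi * I by ring, Complex.exp_pi_mul_I]
  have hI : normSq I = 1 := normSq_I
  have hI' : normSq (-I) = 1 := by rw [normSq_neg, normSq_I]
  set s : Mod m k → Mod m k := fun z => sc I 1 (φ u z) with hs
  set r : Mod m k → Mod m k := fun z => φ (-u) (sc (-I) 1 z) with hr
  obtain ⟨hφd, hφd', hφm, hφm', hφ1, hφ2⟩ := flow_isAut hφ u
  have hsd : DifferentiableOn ℂ s S.dom := (sc I 1).differentiable.comp_differentiableOn hφd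
  have hsm : MapsTo s S.dom S.dom := fun z hz => rot_mem S hI (hφm hz)
  have hrd : DifferentiableOn ℂ r S.dom :=
    hφd'.comp (sc (-I) 1).differentiable.differentiableOn (rot_mem S hI')
  have hrm : MapsTo r S.dom S.dom := fun z hz => hφm' (rot_mem S hI' hz)
  have hrs : ∀ z ∈ S.dom, r (s z) = z := fun z hz => by
    simp only [hs, hr, sc_apply, smul_smul, neg_mul, I_mul_I, neg_neg, one_smul]
    simpa using hφ1 z hz
  have hsr : ∀ z ∈ S.dom, s (r z) = z := fun z hz => by
    simp only [hs, hr]
    rw [hφ2 _ (rot_mem S hI' hz)]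
    simp [smul_smul]
  have hsp : s (base e) = base e := by
    simp only [hs, hfix]
    simp [axis]
  have hds : HasFDerivAt s (sc (-1) (-1) : Op m k) (base e) := by
    have h1 : HasFDerivAt (φ u) (sc I (-1) : Op m k) (base e) := by
      rw [← hd]
      exact (hφd.differentiableAt (hV.mem_nhds hp)).hasFDerivAt
    refine ((sc I 1 : Op m k).hasFDerivAt.comp (base e) h1).congr_fderiv ?_
    exact (sc_mul I 1 I (-1)).trans (by simp)
  have hinv : ∀ z ∈ S.dom, s (s z) = z := by
    have haut : IsAut S.dom (s ∘ s) (r ∘ r) :=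
      ⟨hsd.comp hsd hsm, hrd.comp hrd hrm, hsm.comp hsm, hrm.comp hrm,
        fun z hz => by simp only [Function.comp]; rw [hrs _ (hsm hz), hrs z hz],
        fun z hz => by simp only [Function.comp]; rw [hsr _ (hrm hz), hsr z hz]⟩
    refine P.uniq (base e) hp _ _ haut (by simp [hsp]) (HasFDerivAt.fderiv ?_)
    refine ((show HasFDerivAt s (sc (-1) (-1) : Op m k) (s (base e)) by rw [hsp]; exact hds).comp
      (base e) hds).congr_fderiv ?_
    ext v <;> simp
  refine ⟨s, hsd, hsm, hinv, hsp, ?_⟩
  have hg : HasFDerivAt (fun z => s z - z) ((sc (-1) (-1) : Op m k) - ContinuousLinearMap.id ℂ _)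
      (base e) := hds.fun_sub (hasFDerivAt_id _)
  have hne := hg.eventually_ne (c := (0 : Mod m k)) ⟨1, AddMonoidHomClass.antilipschitz_of_bound _
    fun v => by
      have hv : (sc (-1) (-1) : Op m k) v - v = (-2 : ℂ) • v := by
        refine Prod.ext ?_ ?_ <;> simp <;> module
      rw [sub_apply, ContinuousLinearMap.id_apply, hv, norm_smul]
      simp only [norm_neg, Complex.norm_two, NNReal.coe_one, one_mul]
      linarith [norm_nonneg v]⟩
  rw [eventually_nhdsWithin_iff] at hne
  filter_upwards [hne] with z hz hzz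
  by_contra hzp
  exact hz hzp (sub_eq_zero.2 hzz)

end

end Vale.Agent.P274.Full.Sym

namespace Vale.Agent.P274.Full

open Vale.Agent.P274.Full.Sym in
/-- A Siegel domain with such an algebra of complete fields is symmetric. -/
theorem sym : SymStmt := by
  intro m k S P p hp
  obtain ⟨e, he, a, b, ⟨had, hbd, ham, hbm, hba, hab⟩, hap⟩ := exists_move S hp
  obtain ⟨s, hsd, hsm, hinv, hfix, hiso⟩ := sym_base P he
  refine ⟨b ∘ s ∘ a, hbd.comp (hsd.comp had ham) (hsm.comp ham), hbm.comp (hsm.comp ham),
    fun z hz => ?_, ?_, ?_⟩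
  · simp only [Function.comp]
    rw [hab _ (hsm (ham hz)), hinv _ (ham hz), hba z hz]
  · simp only [Function.comp]
    rw [hap, hfix, ← hap, hba p hp]
  · have hc : ContinuousAt a p := had.continuousOn.continuousAt ((Cayley.isOpen_dom S).mem_nhds hp)
    have h1 : ∀ᶠ z in 𝓝 p, s (a z) = a z → a z = base e :=
      hc.tendsto.eventually (by rw [hap]; exact hiso)
    filter_upwards [h1, (Cayley.isOpen_dom S).mem_nhds hp] with z hz hzV hzz
    simp only [Function.comp] at hzz
    have h2 : s (a z) = a z := by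
      have := congrArg a hzz
      rwa [hab _ (hsm (ham hzV))] at this
    rw [← hba z hzV, hz h2, ← hap, hba p hp]

end Vale.Agent.P274.Full
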