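import Vale.Agent.P274.Full.Sym.Ext
import Mathlib.Analysis.Complex.TaylorSeries
import Mathlib.Analysis.Calculus.IteratedDeriv.Lemmas
import Mathlib.LinearAlgebra.Lagrange
import Mathlib.LinearAlgebra.Charpoly.Basic
import Mathlib.LinearAlgebra.Eigenspace.Charpoly
import Mathlib.Algebra.DirectSum.Module

/-!
The grading of the algebra of complete fields by the weighted dilations.
-/

open Filter Metric Set Function Topology Complex Polynomial

namespace Vale.Agent.P274.Full.Sym

noncomputable section

variable {m k : ℕ}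

/-- The field `X` has weight `n`. -/
def Wt (n : ℕ) (X : Mod m k → Mod m k) : Prop :=
  ∀ (t : ℂ) p, t ^ 2 • X (dil t p) = t ^ n • dil t (X p)

theorem hasDerivAt_dil (p : Mod m k) (t : ℂ) :
    HasDerivAt (fun t : ℂ => dil t p) ((p.1, (2 * t) • p.2) : Mod m k) t := by
  have h1 : HasDerivAt (fun t : ℂ => t • p.1) p.1 t := by
    simpa using (hasDerivAt_id t).smul_const p.1
  have h2 : HasDerivAt (fun t : ℂ => t ^ 2 • p.2) ((2 * t) • p.2) t := by
    simpa using (hasDerivAt_pow 2 t).smul_const p.2
  exact h1.prodMk h2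

theorem Wt.euler {n : ℕ} {X : Mod m k → Mod m k} (hX : Differentiable ℂ X) (h : Wt n X)
    (p : Mod m k) :
    sc 1 2 (X p) - fderiv ℂ X p (sc 1 2 p) = ((2 : ℂ) - n) • X p := by
  have hE : HasDerivAt (fun t : ℂ => dil t p) (sc 1 2 p) 1 := by
    simpa using hasDerivAt_dil p 1
  have h1 : HasDerivAt (fun t : ℂ => t ^ 2 • X (dil t p))
      (fderiv ℂ X p (sc 1 2 p) + (2 : ℂ) • X p) 1 := by
    simpa using (hasDerivAt_pow 2 (1 : ℂ)).fun_smul
      ((hX p).hasFDerivAt.comp_hasDerivAt_of_eq 1 hE (dil_one p).symm)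
  have h2 : HasDerivAt (fun t : ℂ => t ^ n • dil t (X p)) (sc 1 2 (X p) + (n : ℂ) • X p) 1 := by
    simpa using (hasDerivAt_pow n (1 : ℂ)).fun_smul (hasDerivAt_dil (X p) 1)
  have h3 := h1.unique (h2.congr_of_eventuallyEq (Eventually.of_forall fun t => h t p))
  rw [sub_smul, eq_sub_iff_add_eq']
  linear_combination (norm := module) -h3

theorem Wt.dir {n : ℕ} {X : Mod m k → Mod m k} (hX : Differentiable ℂ X) (h : Wt (n + 2) X)
    (v : Cn k) : Wt n fun p => fderiv ℂ X p ((0 : Cn m), v) := by
  intro t p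
  dsimp only
  rcases eq_or_ne t 0 with rfl | ht
  · simp [Prod.ext_iff]
  have hp : HasDerivAt (fun s : ℂ => p + s • ((0 : Cn m), v)) ((0 : Cn m), v) 0 := by
    simpa using ((hasDerivAt_id (0 : ℂ)).smul_const (((0 : Cn m), v) : Mod m k)).const_add p
  have h1 : HasDerivAt (fun s : ℂ => t ^ 2 • X (dil t (p + s • ((0 : Cn m), v))))
      (t ^ 2 • fderiv ℂ X (dil t p) (dil t ((0 : Cn m), v))) 0 :=
    ((hX _).hasFDerivAt.comp_hasDerivAt_of_eq 0
      ((dil t).hasFDerivAt.comp_hasDerivAt 0 hp) (by simp)).const_smul (t ^ 2)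
  have h2 : HasDerivAt (fun s : ℂ => t ^ (n + 2) • dil t (X (p + s • ((0 : Cn m), v))))
      (t ^ (n + 2) • dil t (fderiv ℂ X p ((0 : Cn m), v))) 0 :=
    ((dil t).hasFDerivAt.comp_hasDerivAt 0
      ((hX p).hasFDerivAt.comp_hasDerivAt_of_eq 0 hp (by simp))).const_smul (t ^ (n + 2))
  have h3 := h1.unique (h2.congr_of_eventuallyEq (Eventually.of_forall fun s => h t _))
  have hv : dil t (((0 : Cn m), v) : Mod m k) = t ^ 2 • (((0 : Cn m), v) : Mod m k) := by
    simp
  rw [hv, map_smul, pow_add, mul_smul, smul_comm (t ^ n)] at h3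
  exact (smul_right_injective _ (pow_ne_zero 2 ht)) h3

theorem differentiable_iteratedDeriv {E : Type*} [NormedAddCommGroup E] [NormedSpace ℂ E]
    [CompleteSpace E] {f : ℂ → E} (hf : Differentiable ℂ f) (j : ℕ) :
    Differentiable ℂ (iteratedDeriv j f) := by
  induction j with
  | zero => simpa using hf
  | succ j ih =>
    rw [iteratedDeriv_succ]
    exact fun z => (ih.differentiableOn.analyticOnNhd isOpen_univ z (mem_univ z)).deriv.differentiableAt

theorem iteratedDeriv_euler {E : Type*} [NormedAddCommGroup E] [NormedSpace ℂ E] [CompleteSpace E]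
    (A : E →L[ℂ] E) {g : ℂ → E} (hg : Differentiable ℂ g) (j : ℕ) :
    iteratedDeriv j (fun t => A (g t) - t • deriv g t) = fun t =>
      A (iteratedDeriv j g t) - (j : ℂ) • iteratedDeriv j g t - t • iteratedDeriv (j + 1) g t := by
  induction j with
  | zero => funext t; simp
  | succ j ih =>
    rw [iteratedDeriv_succ, ih]
    funext t
    have h : ∀ i, HasDerivAt (iteratedDeriv i g) (iteratedDeriv (i + 1) g t) t := fun i => by
      rw [iteratedDeriv_succ]
      exact (differentiable_iteratedDeriv hg i t).hasDerivAt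
    have h1 := ((A.hasFDerivAt.comp_hasDerivAt t (h j)).fun_sub ((h j).const_smul (j : ℂ))).fun_sub
      ((hasDerivAt_id t).fun_smul (h (j + 1)))
    refine h1.deriv.trans ?_
    simp only [id_eq, Nat.cast_add, Nat.cast_one]
    module

variable {S : Siegel m k} (P : LieData S.dom)

theorem exists_euler (c : Fin P.d → ℝ) :
    ∃ c', ∀ p, sc 1 2 (ext P c p) - fderiv ℂ (ext P c) p (sc 1 2 p) = ext P c' p := by
  set X := ext P c with hX
  have hg : Good S fun p => sc 1 2 (X p) - fderiv ℂ X p (sc 1 2 p) := by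
    refine Good.deriv P (F := fun s p =>
      if s = 0 then X p else dil (s : ℂ) (X (dil ((s⁻¹ : ℝ) : ℂ) p))) (t₀ := 1) (fun s => ?_)
      fun p => ?_
    · by_cases hs : s = 0
      · simpa [hs] using good_ext P c
      · simpa [hs] using (good_ext P c).comp_dil P hs
    · have hi : HasDerivAt (fun σ : ℂ => dil σ⁻¹ p) (-(sc 1 2 p)) 1 := by
        have hE : HasDerivAt (fun t : ℂ => dil t p) (sc 1 2 p) 1 := by
          simpa using hasDerivAt_dil p 1
        simpa [Function.comp_def] using
          HasDerivAt.scomp_of_eq (1 : ℂ) hE (hasDerivAt_inv one_ne_zero) inv_one.symm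
      have hy : HasDerivAt (fun σ : ℂ => X (dil σ⁻¹ p)) (-(fderiv ℂ X p (sc 1 2 p))) 1 :=
        (((good_ext P c).1 p).hasFDerivAt.comp_hasDerivAt_of_eq 1 hi
          (by rw [inv_one, dil_one])).congr_deriv (map_neg _ _)
      have hd : HasDerivAt (fun σ : ℂ => dil σ (X (dil σ⁻¹ p)))
          (sc 1 2 (X p) - fderiv ℂ X p (sc 1 2 p)) 1 := by
        have h1 := (hasDerivAt_id (1 : ℂ)).fun_smul
          ((ContinuousLinearMap.fst ℂ (Cn m) (Cn k)).hasFDerivAt.comp_hasDerivAt 1 hy)
        have h2 := (hasDerivAt_pow 2 (1 : ℂ)).fun_smul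
          ((ContinuousLinearMap.snd ℂ (Cn m) (Cn k)).hasFDerivAt.comp_hasDerivAt 1 hy)
        refine (h1.prodMk h2).congr_deriv ?_
        refine Prod.ext ?_ ?_ <;> simp <;> abel
      have hr := comp_real (t := (1 : ℝ)) (f := fun σ : ℂ => dil σ (X (dil σ⁻¹ p)))
        (f' := sc 1 2 (X p) - fderiv ℂ X p (sc 1 2 p)) (by rw [ofReal_one]; exact hd)
      refine hr.congr_of_eventuallyEq ?_
      filter_upwards [eventually_ne_nhds (one_ne_zero : (1 : ℝ) ≠ 0)] with s hs
      simp [hs]
  obtain ⟨c', hc'⟩ := hg.exists_eq P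
  exact ⟨c', congrFun hc'⟩

/-- The Euler bracket on coefficients. -/
def M : (Fin P.d → ℝ) →ₗ[ℝ] (Fin P.d → ℝ) where
  toFun c := (exists_euler P c).choose
  map_add' a b := by
    refine ext_injective P (funext fun p => ?_)
    rw [ext_add, ← (exists_euler P (a + b)).choose_spec p, ← (exists_euler P a).choose_spec p,
      ← (exists_euler P b).choose_spec p]
    have : ext P (a + b) = fun p => ext P a p + ext P b p := funext (ext_add P a b)
    rw [this, fderiv_fun_add (differentiable_ext P a p) (differentiable_ext P b p)]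
    simp only [map_add, add_apply]
    abel
  map_smul' t a := by
    refine ext_injective P (funext fun p => ?_)
    rw [RingHom.id_apply, ext_smul, ← (exists_euler P (t • a)).choose_spec p,
      ← (exists_euler P a).choose_spec p]
    have : ext P (t • a) = fun p => (t : ℂ) • ext P a p :=
      funext fun p => by rw [ext_smul, Complex.coe_smul]
    rw [this, fderiv_fun_const_smul (differentiable_ext P a p), map_smul, smul_apply, smul_sub,
      Complex.coe_smul, Complex.coe_smul]

theorem ext_M (c : Fin P.d → ℝ) (p : Mod m k) :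
    ext P (M P c) p = sc 1 2 (ext P c p) - fderiv ℂ (ext P c) p (sc 1 2 p) :=
  ((exists_euler P c).choose_spec p).symm

/-- The Taylor coefficients along the weighted lines. -/
def co (j : ℕ) (p : Mod m k) (c : Fin P.d → ℝ) : Mod m k :=
  iteratedDeriv j (fun t : ℂ => ext P c (dil t p)) 0

theorem differentiable_line (c : Fin P.d → ℝ) (p : Mod m k) :
    Differentiable ℂ fun t : ℂ => ext P c (dil t p) := fun t =>
  (differentiable_ext P c _).comp t (hasDerivAt_dil p t).differentiableAt

theorem co_M (j : ℕ) (p : Mod m k) (c : Fin P.d → ℝ) :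
    co P j p (M P c) = sc (1 - j) (2 - j) (co P j p c) := by
  have hfun : (fun t : ℂ => ext P (M P c) (dil t p)) = fun t =>
      sc 1 2 (ext P c (dil t p)) - t • deriv (fun t : ℂ => ext P c (dil t p)) t := by
    funext t
    have h : HasDerivAt (fun t : ℂ => ext P c (dil t p))
        (fderiv ℂ (ext P c) (dil t p) ((p.1, (2 * t) • p.2) : Mod m k)) t :=
      (differentiable_ext P c _).hasFDerivAt.comp_hasDerivAt t (hasDerivAt_dil p t)
    rw [ext_M, h.deriv, ← map_smul]
    congr 2
    refine Prod.ext (by simp) ?_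
    simp only [sc_apply, Prod.smul_mk, smul_smul]
    congr 1
    ring
  rw [co, hfun, iteratedDeriv_euler _ (differentiable_line P c p)]
  simp only [co, zero_smul, sub_zero]
  refine Prod.ext ?_ ?_ <;> simp [sub_smul]

theorem co_add (j : ℕ) (p : Mod m k) (a b : Fin P.d → ℝ) :
    co P j p (a + b) = co P j p a + co P j p b := by
  simp only [co, ext_add]
  have h : ∀ c, Differentiable ℂ fun t : ℂ => ext P c (dil t p) := fun c => differentiable_line P c p
  have : ∀ i, iteratedDeriv i (fun t : ℂ => ext P a (dil t p) + ext P b (dil t p)) = fun t =>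
      iteratedDeriv i (fun t : ℂ => ext P a (dil t p)) t +
        iteratedDeriv i (fun t : ℂ => ext P b (dil t p)) t := by
    intro i
    induction i with
    | zero => simp
    | succ i ih =>
      funext t
      rw [iteratedDeriv_succ, iteratedDeriv_succ, iteratedDeriv_succ, ih]
      exact deriv_fun_add (differentiable_iteratedDeriv (h a) i t)
        (differentiable_iteratedDeriv (h b) i t)
  exact congrFun (this j) 0

theorem co_smul (j : ℕ) (p : Mod m k) (t : ℝ) (a : Fin P.d → ℝ) :
    co P j p (t • a) = (t : ℂ) • co P j p a := by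
  simp only [co, ext_smul, ← Complex.coe_smul]
  exact iteratedDeriv_fun_const_smul_field (t : ℂ) _

theorem co_aeval (q : ℝ[X]) (j : ℕ) (p : Mod m k) (c : Fin P.d → ℝ) :
    co P j p (aeval (M P) q c) =
      sc ((q.eval (1 - j : ℝ) : ℝ) : ℂ) ((q.eval (2 - j : ℝ) : ℝ) : ℂ) (co P j p c) := by
  induction q using Polynomial.induction_on generalizing c with
  | C a =>
    simp only [aeval_C, Module.algebraMap_end_apply, co_smul, eval_C]
    refine Prod.ext ?_ ?_ <;> simp
  | add f g hf hg =>
    simp only [map_add, LinearMap.add_apply, co_add, hf, hg, eval_add]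
    refine Prod.ext ?_ ?_ <;> simp [add_smul]
  | monomial n a ih =>
    rw [pow_succ, ← mul_assoc, map_mul, Module.End.mul_apply, aeval_X, ih, co_M]
    simp only [eval_mul, eval_X, ofReal_mul]
    refine Prod.ext ?_ ?_ <;> simp [smul_smul]

theorem hasSum_co (c : Fin P.d → ℝ) (p : Mod m k) (t : ℂ) :
    HasSum (fun j => (Nat.factorial j : ℂ)⁻¹ • t ^ j • co P j p c) (ext P c (dil t p)) := by
  simpa [co] using Complex.hasSum_taylorSeries_of_entire (differentiable_line P c p) 0 t

theorem eq_of_co {a b : Fin P.d → ℝ} (h : ∀ p j, co P j p a = co P j p b) : a = b := by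
  refine ext_injective P (funext fun p => ?_)
  have h1 := hasSum_co P a p 1
  have h2 := hasSum_co P b p 1
  simp only [h] at h1
  simpa only [dil_one] using h1.unique h2

/-- The weights which occur. -/
def wts : Finset ℕ :=
  ((Polynomial.finite_setOfPred_isRoot
    (p := LinearMap.charpoly (M P)) (LinearMap.charpoly_monic (M P)).ne_zero).preimage
      (f := fun n : ℕ => (2 - n : ℝ))
      (Set.injOn_of_injective fun a b h => by simpa using h)).toFinset

theorem co_eq_zero (c : Fin P.d → ℝ) (j : ℕ) (p : Mod m k) :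
    (j + 1 ∉ wts P → (co P j p c).1 = 0) ∧ (j ∉ wts P → (co P j p c).2 = 0) := by
  have h := co_aeval P (LinearMap.charpoly (M P)) j p c
  rw [LinearMap.aeval_self_charpoly, LinearMap.zero_apply] at h
  have h0 : co P j p 0 = 0 := by simpa using co_smul P j p 0 0
  rw [h0, sc_apply, eq_comm, Prod.mk_eq_zero] at h
  constructor <;> intro hj <;> simp only [wts, Finite.mem_toFinset, mem_preimage, mem_ofPred_eq,
    IsRoot] at hj
  · refine (smul_eq_zero.1 h.1).resolve_left ?_
    rw [ofReal_eq_zero]
    rwa [show (1 - j : ℝ) = 2 - ((j + 1 : ℕ) : ℝ) by push_cast; ring]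
  · exact (smul_eq_zero.1 h.2).resolve_left (by rwa [ofReal_eq_zero])

/-- The fields of weight `n`. -/
def W (n : ℕ) : Submodule ℝ (Fin P.d → ℝ) where
  carrier := {c | Wt n (ext P c)}
  zero_mem' t p := by
    have : ext P 0 = fun _ => (0 : Mod m k) := funext fun q => by simpa using ext_smul P 0 0 q
    simp [this, Prod.ext_iff]
  add_mem' {a b} ha hb t p := by
    simp only [ext_add, smul_add, map_add, ha t, hb t]
  smul_mem' r a ha t p := by
    simp only [ext_smul, ← Complex.coe_smul, map_smul]
    rw [smul_comm, ha t, smul_comm]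

theorem M_eq {n : ℕ} {c : Fin P.d → ℝ} (hc : c ∈ W P n) : M P c = (2 - n : ℝ) • c := by
  refine ext_injective P (funext fun p => ?_)
  rw [ext_M, ext_smul, Wt.euler (differentiable_ext P c) hc, ← Complex.coe_smul]
  push_cast
  rfl

theorem W_eq_bot {n : ℕ} (hn : n ∉ wts P) : W P n = ⊥ := by
  rw [Submodule.eq_bot_iff]
  intro c hc
  by_contra hne
  apply hn
  have h := (Module.End.hasEigenvalue_iff_isRoot_charpoly (M P) _).1
    (Module.End.hasEigenvalue_of_hasEigenvector
      ⟨Module.End.mem_eigenspace_iff.2 (M_eq P hc), hne⟩)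
  simpa [wts, IsRoot] using h

theorem iSup_W : ⨆ n : wts P, W P n.1 = ⊤ := by
  classical
  rw [eq_top_iff]
  intro c _
  set v : ℕ → ℝ := fun n => 2 - n
  have hv : InjOn v (wts P : Set ℕ) := fun a _ b _ h => by simpa [v] using h
  have hev : ∀ a ∈ wts P, ∀ i ∈ wts P,
      (Lagrange.basis (wts P) v i).eval (v a) = if i = a then 1 else 0 := fun a ha i hi => by
    split_ifs with h
    · subst h
      exact Lagrange.eval_basis_self hv ha
    · exact Lagrange.eval_basis_of_ne h ha
  have hco : ∀ (i : ℕ) (p : Mod m k) (j : ℕ), i ∈ wts P →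
      co P j p (aeval (M P) (Lagrange.basis (wts P) v i) c) =
        (if i = j + 1 then (co P j p c).1 else 0, if i = j then (co P j p c).2 else 0) := by
    intro i p j hi
    rw [co_aeval, sc_apply]
    refine Prod.ext ?_ ?_
    · by_cases hj : j + 1 ∈ wts P
      · have e : (1 - j : ℝ) = v (j + 1) := by simp [v]; ring
        rw [e, hev _ hj i hi]
        split_ifs <;> simp
      · simp [(co_eq_zero P c j p).1 hj]
    · by_cases hj : j ∈ wts P
      · have e : (2 - j : ℝ) = v j := rfl
        rw [e, hev _ hj i hi]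
        split_ifs <;> simp
      · simp [(co_eq_zero P c j p).2 hj]
  have hmem : ∀ i ∈ wts P, aeval (M P) (Lagrange.basis (wts P) v i) c ∈ W P i := by
    intro i hi t p
    set a := aeval (M P) (Lagrange.basis (wts P) v i) c
    have key : ∀ s : ℂ,
        (ext P a (dil s p)).2 = ((Nat.factorial i : ℂ)⁻¹ * s ^ i) • (co P i p c).2 := fun s => by
      refine ((hasSum_co P a p s).map (ContinuousLinearMap.snd ℂ (Cn m) (Cn k))
        (ContinuousLinearMap.snd ℂ _ _).continuous).unique ?_
      convert hasSum_single i ?_ using 1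
      · simp [a, hco i p i hi, smul_smul]
      · intro j hj
        simp [a, hco i p j hi, Ne.symm hj]
    have key1 : ∀ s : ℂ, (s ^ 2 • ext P a (dil s p)).1 = (s ^ i • dil s (ext P a p)).1 := fun s => by
      have hval : ∀ s : ℂ, (ext P a (dil s p)).1 =
          if i = 0 then 0 else ((Nat.factorial (i - 1) : ℂ)⁻¹ * s ^ (i - 1)) • (co P (i - 1) p c).1 := by
        intro s
        refine ((hasSum_co P a p s).map (ContinuousLinearMap.fst ℂ (Cn m) (Cn k))
          (ContinuousLinearMap.fst ℂ _ _).continuous).unique ?_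
        rcases Nat.eq_zero_or_pos i with h0 | h0
        · subst h0
          simp [a, hco 0 p _ hi, Function.comp_def, hasSum_zero]
        · rw [if_neg h0.ne']
          convert hasSum_single (i - 1) ?_ using 1
          · simp [a, hco i p _ hi, smul_smul, Nat.sub_add_cancel h0]
          · intro j hj
            have : i ≠ j + 1 := by omega
            simp [a, hco i p j hi, this]
      have h1 := hval 1
      rw [dil_one] at h1
      rw [Prod.smul_fst, hval]
      simp only [Prod.smul_fst, sc_apply, h1]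
      rcases Nat.eq_zero_or_pos i with h0 | h0
      · simp [h0]
      · obtain ⟨j, rfl⟩ : ∃ j, i = j + 1 := ⟨i - 1, by omega⟩
        simp only [Nat.succ_ne_zero, if_false, Nat.add_sub_cancel, one_pow, mul_one, smul_smul]
        congr 1
        ring
    refine Prod.ext (key1 t) ?_
    have h1 := key 1
    rw [dil_one] at h1
    rw [Prod.smul_snd, key]
    simp only [Prod.smul_snd, sc_apply, h1, smul_smul]
    congr 1
    ring
  have hsum : c = ∑ i ∈ wts P, aeval (M P) (Lagrange.basis (wts P) v i) c := by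
    refine eq_of_co P fun p j => ?_
    have hlin : co P j p (∑ i ∈ wts P, aeval (M P) (Lagrange.basis (wts P) v i) c) =
        ∑ i ∈ wts P, co P j p (aeval (M P) (Lagrange.basis (wts P) v i) c) :=
      map_sum (AddMonoidHom.mk' (co P j p) (co_add P j p)) _ _
    rw [hlin, Finset.sum_congr rfl fun i hi => hco i p j hi]
    refine Prod.ext ?_ ?_
    · rw [Prod.fst_sum, Finset.sum_ite_eq']
      split_ifs with h
      · rfl
      · exact (co_eq_zero P c j p).1 h
    · rw [Prod.snd_sum, Finset.sum_ite_eq']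
      split_ifs with h
      · rfl
      · exact (co_eq_zero P c j p).2 h
  rw [hsum]
  exact Submodule.sum_mem _ fun i hi =>
    Submodule.mem_iSup_of_mem (⟨i, hi⟩ : wts P) (hmem i hi)

theorem isInternal_W : DirectSum.IsInternal fun n : wts P => W P n.1 := by
  classical
  refine DirectSum.isInternal_submodule_of_iSupIndep_of_iSup_eq_top ?_ (iSup_W P)
  refine ((Module.End.eigenspaces_iSupIndep (M P)).comp
    (f := fun n : wts P => (2 - n.1 : ℝ)) fun a b h => Subtype.ext ?_).mono fun n c hc => ?_
  · simpa using h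
  · exact Module.End.mem_eigenspace_iff.2 (M_eq P hc)

theorem weight_balance :
    ∑ n : wts P, n.1 * Module.finrank ℝ (W P n.1) = ∑ n : wts P, 2 * Module.finrank ℝ (W P n.1) := by
  classical
  obtain ⟨L, hL, hdet⟩ := P.det _ _ (isAut_dil S (two_ne_zero' ℝ))
  set b := (isInternal_W P).collectedBasis fun n : wts P => Module.finBasis ℝ (W P n.1)
  have hLb : ∀ x, L (b x) = ((4 : ℝ) / 2 ^ (x.1.1)) • b x := by
    intro x
    have hx : b x ∈ W P x.1.1 := (isInternal_W P).collectedBasis_mem _ x
    refine sub_eq_zero.1 (P.indep _ fun z hz => ?_)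
    have h := hx ((2⁻¹ : ℝ) : ℂ) z
    have h2 := congrArg (fun y => dil ((2 : ℝ) : ℂ) y) h
    simp only [map_smul, dil_dil, ← Complex.ofReal_mul] at h2
    rw [mul_inv_cancel₀ (two_ne_zero' ℝ), ofReal_one, dil_one] at h2
    have h3 : comb P.B (L (b x)) z =
        dil ((2 : ℝ) : ℂ) (ext P (b x) (dil ((2⁻¹ : ℝ) : ℂ) z)) := by
      rw [← hL (b x) hz, push, ext_eq P _ (dil_mem S (by norm_num) hz)]
      rw [show fderiv ℂ (dil (m := m) (k := k) ((2 : ℝ) : ℂ)) (dil ((2⁻¹ : ℝ) : ℂ) z) =
        dil ((2 : ℝ) : ℂ) from (dil ((2 : ℝ) : ℂ)).hasFDerivAt.fderiv]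
    rw [← sub_eq_zero]
    have h4 : comb P.B (L (b x) - ((4 : ℝ) / 2 ^ x.1.1) • b x) z =
        comb P.B (L (b x)) z - ((4 : ℝ) / 2 ^ x.1.1) • comb P.B (b x) z := by
      simp [comb, sub_smul, Finset.sum_sub_distrib, Finset.smul_sum, smul_smul]
    rw [h4, h3, ← ext_eq P _ hz, Pi.zero_apply, sub_zero, sub_eq_zero]
    rw [← Complex.ofReal_pow, ← Complex.ofReal_pow, Complex.coe_smul, Complex.coe_smul] at h2
    rw [← smul_right_inj (show ((2⁻¹ : ℝ) ^ 2) ≠ 0 by norm_num), h2, smul_smul]
    congr 1
    rw [inv_pow, inv_pow]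
    field_simp
    norm_num
  have hd : LinearMap.det L = ∏ x : (n : wts P) × Fin (Module.finrank ℝ (W P n.1)),
      ((4 : ℝ) / 2 ^ (x.1.1 : ℕ) : ℝ) := by
    rw [← LinearMap.det_toMatrix b, ← Matrix.det_diagonal]
    congr 1
    ext i j
    rw [LinearMap.toMatrix_apply, hLb, map_smul, Finsupp.smul_apply, Module.Basis.repr_self,
      Finsupp.single_apply, Matrix.diagonal_apply]
    by_cases h : i = j <;> simp [h, eq_comm]
  rw [hd, Fintype.prod_sigma, abs_of_nonneg (by positivity)] at hdet
  simp only [Finset.prod_const, Finset.card_univ, Fintype.card_fin, div_pow, ← pow_mul,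
    Finset.prod_div_distrib, show (4 : ℝ) = 2 ^ 2 by norm_num,
    Finset.prod_pow_eq_pow_sum] at hdet
  rw [div_eq_one_iff_eq (by positivity)] at hdet
  exact (pow_right_injective₀ (by norm_num) (by norm_num) hdet).symm

end

end Vale.Agent.P274.Full.Sym
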